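import Vale.Agent.P352.ND.L0a

/-!
# P352 NR: the second derivative of local generators commutes with the fields, without bounds
-/

set_option linter.all false

noncomputable section

open MeasureTheory Filter Topology SchwartzMap Complex Set
open scoped SchwartzMap ComplexConjugate ContDiff LineDeriv

namespace Vale.Agent.P352.NR

open GF (Ix V Fn Fld Theory Sch IsLor bas o sim pd tr ev bar)
open H246 H496 H755 H15 H846 H246R H746 N86 NC ND
open UniformSpace (Completion)

variable {D : Type*} [NormedAddCommGroup D] [InnerProductSpace ℂ D]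
variable {Q : GF.Theory D} {T : Ix → Ix → GF.Fld D}
variable {A : (V → V) → D → D} {K : V → D → D}

/-- the commutator of a translation generator with a field -/
lemma comm_fld (R : H15.Rep Q A) {B : GF.Fld D} (hB : Q.fld B) {f : Fn} (hf : GF.IsTest f) (x : V)
    (v : D) : A (fun _ => x) (B f v) = B f (A (fun _ => x) v) +
      Complex.I • B (vf (fun _ => x) f) v := by
  have K : Crv (fun _ => 1) (fun _ => GF.one) (fun s : ℝ => s • x) 0 0 x :=
    ⟨rfl, rfl, zero_smul _ _, fun _ => one_pos, fun _ => isLor_one, hasDerivAt_const _ _,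
      fun m n => hasDerivAt_const _ _, fun n => by
        have := (hasDerivAt_id (0 : ℝ)).mul_const (x n)
        simpa using this⟩
  have hX : ∀ z n, (fun _ : V => x) z n = x n + 0 * z n + ∑ m, z m * (0 : Ix → V) m n :=
    fun z n => by simp
  obtain ⟨F, rfl⟩ := exists_fl hf
  have h1 := comm_gen R K hX (B := fun _ : Unit => B) (fun _ => hB) hB (C := fun _ _ => 1)
    (C' := fun _ => 0) (fun _ => hasDerivAt_const _ _) F v (fun e => by
      rw [Q.transl B (e • x) (fl F) v hB (isTest_fl F)]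
      rw [fl_sim 1 (K.sp e) (K.lor e)]
      simp only [Finset.univ_unique, Finset.sum_const, Finset.card_singleton, one_smul, ofReal_one]
      rfl)
  rw [← fl_vfS hX]
  simp only [Finset.univ_unique, Finset.sum_const, Finset.card_singleton, one_smul, ofReal_one,
    ofReal_zero, zero_smul, zero_add] at h1
  rw [H746.fld_smul hB (isTest_fl F)] at h1
  have h2 := congrArg (fun u => (-I) • u) h1
  have e2 : -I * I = 1 := by rw [neg_mul, I_mul_I, neg_neg]
  simp only [smul_add, smul_smul, e2, one_smul] at h2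
  rw [h2, neg_smul]
  abel

/-- the double commutator of `M` with `X` and `Y` vanishes -/
def Dbl (M X Y : D → D) : Prop := ∀ v, M (X (Y v)) - X (M (Y v)) = Y (M (X v) - X (M v))

/-- a linear map from an operator with an adjoint -/
def lmp {M M' : D → D} (h : Adj M M') : Module.End ℂ D where
  toFun := M
  map_add' := h.add
  map_smul' := h.smul

lemma lmp_apply {M M' : D → D} (h : Adj M M') (v : D) : lmp h v = M v := rfl

/-- **Derivations of double commutators.** -/
lemma dbl_der {M M' X X' Y Y' P X1 X1' Y1 Y1' : D → D} (hM : Adj M M') (hX : Adj X X')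
    (hY : Adj Y Y') (hP : Adj P P) (hX1 : Adj X1 X1') (hY1 : Adj Y1 Y1')
    (ex : ∀ v, P (X v) = X (P v) + X1 v) (ey : ∀ v, P (Y v) = Y (P v) + Y1 v)
    (h : Dbl M X Y) (h1 : Dbl M X1 Y) (h2 : Dbl M X Y1) :
    Dbl (fun v => P (M v) - M (P v)) X Y := by
  set m := lmp hM with hm
  set x := lmp hX with hx
  set y := lmp hY with hy
  set p := lmp hP with hp
  set x1 := lmp hX1 with hx1
  set y1 := lmp hY1 with hy1
  have Ex : p * x = x * p + x1 := LinearMap.ext fun v => ex v
  have Ey : p * y = y * p + y1 := LinearMap.ext fun v => ey v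
  have H : m * x * y - x * m * y = y * (m * x - x * m) := LinearMap.ext fun v => h v
  have H1 : m * x1 * y - x1 * m * y = y * (m * x1 - x1 * m) := LinearMap.ext fun v => h1 v
  have H2 : m * x * y1 - x * m * y1 = y1 * (m * x - x * m) := LinearMap.ext fun v => h2 v
  have key : (p * m - m * p) * x * y - x * (p * m - m * p) * y =
      y * ((p * m - m * p) * x - x * (p * m - m * p)) := by
    linear_combination (norm := noncomm_ring) p * H - H * p - H1 - H2 - m * Ex * y - m * x * Ey +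
      Ex * m * y + x * m * Ey + Ey * m * x + y * m * Ex - Ey * x * m - y * Ex * m
  intro v
  exact congrArg (fun l : Module.End ℂ D => l v) key

lemma adj_com {M P : D → D} {M' : D → D} (hM : Adj M M') (hP : Adj P P) :
    Adj (fun v => P (M v) - M (P v)) (fun v => M' (P v) - P (M' v)) := by
  intro v w
  rw [inner_sub_left, inner_sub_right, hP, hM, hM, hP]

/-- double commutators with polynomials in the fields -/
lemma dbl_al {M M' : D → D} (hM : Adj M M') {X X' : D → D} (hX : Adj X X') {W : Set V}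
    (h : ∀ B g, Q.fld B → In W g → Dbl M X (B g)) {Y Y' : D → D} (hY : Al Q W Y Y') :
    Dbl M X Y := by
  intro v
  induction hY generalizing v with
  | one => rfl
  | add Y Y' Z Z' _ _ ih1 ih2 =>
    have k1 := ih1 v
    have k2 := ih2 v
    show M (X (Y v + Z v)) - X (M (Y v + Z v)) = _
    rw [hX.add, hM.add, hM.add, hX.add, add_sub_add_comm, k1, k2]
  | smul k Y Y' _ ih =>
    have k1 := ih v
    show M (X (k • Y v)) - X (M (k • Y v)) = _
    rw [hX.smul, hM.smul, hM.smul, hX.smul, ← smul_sub, k1]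
  | fld B B' g Y Y' hB hB' hBB hg _ ih =>
    show M (X (B g (Y v))) - X (M (B g (Y v))) = B g (Y (M (X v) - X (M v)))
    rw [h B g hB hg (Y v), ih v]

lemma adj_fldI {B : GF.Fld D} (hB : Q.fld B) {f : Fn} (hf : GF.IsTest f) (k : ℂ) :
    ∃ X', Adj (fun v => k • B f v) X' := by
  obtain ⟨B1, -, hadj⟩ := Q.adj B hB
  refine ⟨fun v => star k • B1 (bar f) v, fun v w => ?_⟩
  rw [inner_smul_left, inner_smul_right, hadj f v w hf]
  rfl

lemma adj_fld' {B : GF.Fld D} (hB : Q.fld B) {f : Fn} (hf : GF.IsTest f) :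
    ∃ X', Adj (B f) X' := by
  obtain ⟨B1, -, hadj⟩ := Q.adj B hB
  exact ⟨B1 (bar f), fun v w => hadj f v w hf⟩

lemma in_vf {W : Set V} {f : Fn} (hf : In W f) (x : V) : In W (vf (fun _ => x) f) :=
  ⟨isTest_vf (const_sim x) hf.1, IsCompact.of_isClosed_subset hf.2.1 (isClosed_tsupport _)
    NF.f1_tsup, NF.f1_tsup.trans hf.2.2⟩

/-- the commutator with a translation generator has the same locality -/
lemma dbl_com (R : H15.Rep Q A) {M M' : D → D} (hM : Adj M M') {φ : GF.Fld D} (hφ : Q.fld φ)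
    {W1 W2 : Set V} (x : V)
    (h : ∀ B f g, Q.fld B → In W1 f → In W2 g → Dbl M (φ f) (B g)) {B : GF.Fld D} {f g : Fn}
    (hB : Q.fld B) (hf : In W1 f) (hg : In W2 g) :
    Dbl (fun v => A (fun _ => x) (M v) - M (A (fun _ => x) v)) (φ f) (B g) := by
  obtain ⟨X', hX⟩ := adj_fld' hφ hf.1
  obtain ⟨Y', hY⟩ := adj_fld' hB hg.1
  have hf1 := in_vf hf x
  have hg1 := in_vf hg x
  obtain ⟨X1', hX1⟩ := adj_fldI hφ hf1.1 I
  obtain ⟨Y1', hY1⟩ := adj_fldI hB hg1.1 I
  have hP : Adj (A fun _ => x) (A fun _ => x) := fun v w => A_symm R (const_sim x) v w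
  refine dbl_der hM hX hY hP hX1 hY1 (comm_fld R hφ hf.1 x) (comm_fld R hB hg.1 x)
    (h B f g hB hf hg) ?_ ?_
  · intro v
    have h1 := h B _ g hB hf1 hg v
    rw [hM.smul, hM.smul, ← smul_sub, ← smul_sub, h1, hY.smul]
  · intro v
    have h1 := h B f _ hB hf hg1 v
    rw [hX.smul, hM.smul, hM.smul, hX.smul, ← smul_sub, h1]

/-- the core of the argument -/
lemma off_core' (R : H15.Rep Q A) {a : V} (ha : IsNull a)
    (hsym : ∀ v w, inner ℂ (K a v) w = inner ℂ v (K a w)) {c : V} (hcn : IsNull c)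
    (hac : GF.mdot a c = 1) {φ : GF.Fld D} (hφ : Q.bose φ)
    (hherm : ∀ f v w, GF.IsTest f → inner ℂ (φ f v) w = inner ℂ v (φ (bar f) w))
    (hG : NF.GenLoc Q A φ) {f : Fn} (hf : GF.IsTest f) {W1 W : Set V} (hf1 : In W1 (bar f))
    (hW : Big (MW W)) (hsep : ∀ z ∈ tsupport f, ∀ y ∈ W, GF.mdot (z - y) (z - y) < 0) {x : V}
    (hloc : ∀ B f g, Q.fld B → In W1 f → In W g → Dbl (K a) (φ f) (B g))
    (hXs : ∀ v w, inner ℂ (Xi A K a x v) w = inner ℂ v (Xi A K a x w))
    (h0 : Xi A K a x Q.vac = 0) (h1 : Xi A K a x (φ (bar f) Q.vac) = 0) (v : D) :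
    Xi A K a x (φ f v) = φ f (Xi A K a x v) := by
  have hts : tsupport (bar f) = tsupport f := H246.tsupport_bar f
  have hfb := isTest_bar hf
  have hbb : bar (bar f) = f := by
    funext z
    simp [bar]
  have hfld := Q.bose_fld _ hφ
  set P : D → D := A (fun _ => x) with hP
  have hPa : Adj P P := fun v w => A_symm R (const_sim x) v w
  have hK : Adj (K a) (K a) := hsym
  -- the second commutator
  set M1 : D → D := fun v => P (K a v) - K a (P v) with hM1
  set M2 : D → D := fun v => P (M1 v) - M1 (P v) with hM2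
  obtain ⟨M1', hM1a⟩ : ∃ M1', Adj M1 M1' := ⟨_, adj_com hK hPa⟩
  obtain ⟨M2', hM2a⟩ : ∃ M2', Adj M2 M2' := ⟨_, adj_com hM1a hPa⟩
  obtain ⟨X', hX⟩ := adj_fld' hfld hfb
  have k1 : ∀ B f g, Q.fld B → In W1 f → In W g → Dbl M1 (φ f) (B g) := fun B f g hB hf hg =>
    dbl_com R hK hfld x hloc hB hf hg
  have k2 : ∀ {Y Y' : D → D}, Al Q W Y Y' → Dbl M2 (φ (bar f)) Y := fun hY =>
    dbl_al hM2a hX (fun B g hB hg => dbl_com R hM1a hfld x k1 hB hf1 hg) hY
  have hXi : ∀ v, Xi A K a x v = -M2 v - (2 : ℂ) • A (fun _ => cK a x) v := by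
    intro v
    have e : ∀ u w : D, P (u - w) = P u - P w := fun u w => by
      have := hPa.smul (-1) w
      rw [sub_eq_add_neg, ← neg_one_smul ℂ w, hPa.add, this, neg_one_smul, sub_eq_add_neg]
    show (2 : ℂ) • P (K a (P v)) - K a (P (P v)) - P (P (K a v)) - _ =
      -(P (P (K a v) - K a (P v)) - (P (K a (P v)) - K a (P (P v)))) - _
    rw [e, two_smul]
    abel
  rw [← sub_eq_zero]
  refine dens_eq (Q := Q) ha hcn hac hW fun Y Y' hY => ?_
  have e : ∀ u z, inner ℂ u (φ (bar f) z) = inner ℂ (φ f u) z := by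
    intro u z
    rw [← inner_conj_symm, hherm (bar f) z u hfb, inner_conj_symm, hbb]
  have hYs : ∀ (k : ℂ) u, Y (k • u) = k • Y u := fun k u => hY.map_smul k u
  have hYa : ∀ u w, Y (u + w) = Y u + Y w := fun u w => hY.map_add u w
  have hYm : ∀ u w, Y (u - w) = Y u - Y w := fun u w => by
    rw [sub_eq_add_neg, ← neg_one_smul ℂ w, hYa, hYs, neg_one_smul, sub_eq_add_neg]
  have hXm : ∀ u w, φ (bar f) (u - w) = φ (bar f) u - φ (bar f) w := fun u w => by
    rw [sub_eq_add_neg, ← neg_one_smul ℂ w, hX.add, hX.smul, neg_one_smul, sub_eq_add_neg]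
  -- the double commutator of `Xi`
  have hz : Xi A K a x (φ (bar f) (Y Q.vac)) = φ (bar f) (Xi A K a x (Y Q.vac)) := by
    have j1 := k2 hY Q.vac
    have j2 := hG 0 (fun _ => cK a x) (const_sim _) (bar f) hfb W (by rw [hts]; exact hsep)
      Y Y' hY Q.vac
    have j3 : Xi A K a x (φ (bar f) (Y Q.vac)) - φ (bar f) (Xi A K a x (Y Q.vac)) =
        Y (Xi A K a x (φ (bar f) Q.vac) - φ (bar f) (Xi A K a x Q.vac)) := by
      have l1 : ∀ u w : D, φ (bar f) (-u - (2 : ℂ) • w) = -φ (bar f) u - (2 : ℂ) • φ (bar f) w := by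
        intro u w
        rw [hXm, hX.smul, ← neg_one_smul ℂ u, hX.smul, neg_one_smul]
      rw [hXi, hXi, hXi, hXi, l1, l1]
      have l2 : -M2 (φ (bar f) (Y Q.vac)) - (2 : ℂ) • A (fun _ => cK a x) (φ (bar f) (Y Q.vac)) -
          (-φ (bar f) (M2 (Y Q.vac)) - (2 : ℂ) • φ (bar f) (A (fun _ => cK a x) (Y Q.vac))) =
          -(M2 (φ (bar f) (Y Q.vac)) - φ (bar f) (M2 (Y Q.vac))) - (2 : ℂ) •
          (A (fun _ => cK a x) (φ (bar f) (Y Q.vac)) -
            φ (bar f) (A (fun _ => cK a x) (Y Q.vac))) := by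
        rw [smul_sub]
        abel
      have l3 : -M2 (φ (bar f) Q.vac) - (2 : ℂ) • A (fun _ => cK a x) (φ (bar f) Q.vac) -
          (-φ (bar f) (M2 Q.vac) - (2 : ℂ) • φ (bar f) (A (fun _ => cK a x) Q.vac)) =
          -(M2 (φ (bar f) Q.vac) - φ (bar f) (M2 Q.vac)) - (2 : ℂ) •
          (A (fun _ => cK a x) (φ (bar f) Q.vac) -
            φ (bar f) (A (fun _ => cK a x) Q.vac)) := by
        rw [smul_sub]
        abel
      have l4 : ∀ u w : D, Y (-u - (2 : ℂ) • w) = -Y u - (2 : ℂ) • Y w := by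
        intro u w
        rw [hYm, hYs, ← neg_one_smul ℂ u, hYs, neg_one_smul]
      rw [l2, l3, j1, j2, l4]
    have hX0 : φ (bar f) 0 = 0 := by
      have := hX.smul 0 (0 : D)
      simpa using this
    have hY0 : Y 0 = 0 := by
      have := hYs 0 (0 : D)
      simpa using this
    rw [h0, h1, hX0, sub_zero, hY0] at j3
    exact sub_eq_zero.1 j3
  have k4 := congrArg (fun z => inner ℂ v z) hz
  simp only [e] at k4
  rw [← hXs, e, ← hXs] at k4
  rw [← inner_conj_symm, inner_sub_left, k4, sub_self, map_zero]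

/-- fields localized in a half space commute with `Xi` -/
theorem off_plane' (R : H15.Rep Q A) {a : V} (ha : IsNull a)
    (hsym : ∀ v w, inner ℂ (K a v) w = inner ℂ v (K a w))
    {φ : GF.Fld D} (hφ : Q.bose φ) (hL : LocG Q K φ)
    (hherm : ∀ f v w, GF.IsTest f → inner ℂ (φ f v) w = inner ℂ v (φ (bar f) w))
    (hG : NF.GenLoc Q A φ) {x : V}
    (hXs : ∀ v w, inner ℂ (Xi A K a x v) w = inner ℂ v (Xi A K a x w))
    (h0 : Xi A K a x Q.vac = 0)
    (h1 : ∀ f, GF.IsTest f → HasCompactSupport f → Xi A K a x (φ f Q.vac) = 0)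
    {f : Fn} (hf : GF.IsTest f) (hc : HasCompactSupport f)
    (hs : (∀ z ∈ tsupport f, GF.mdot a z < 0) ∨ ∀ z ∈ tsupport f, 0 < GF.mdot a z) (v : D) :
    Xi A K a x (φ f v) = φ f (Xi A K a x v) := by
  obtain ⟨c, hcn, hac⟩ := H755.exists_dual ha
  have hca : GF.mdot c a = 1 := by rw [md_comm]; exact hac
  have hctc := (H846.contDiff_mdot c).continuous
  have hts : tsupport (bar f) = tsupport f := H246.tsupport_bar f
  have hcb : HasCompactSupport (bar f) := by
    show IsCompact (tsupport (bar f))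
    rw [hts]
    exact hc
  -- bounds
  obtain ⟨B0, hB0⟩ : ∃ B0, ∀ z ∈ tsupport f, |GF.mdot c z| ≤ B0 := by
    have h3 : IsCompact ((fun z : V => |GF.mdot c z|) '' tsupport f) :=
      IsCompact.image hc hctc.abs
    obtain ⟨B, hB⟩ := h3.bddAbove
    exact ⟨B, fun z hz => hB ⟨z, hz, rfl⟩⟩
  set l : ℝ := B0 + 1 with hl
  rcases hs with hs | hs
  · have ea : GF.mdot a ((-l) • a) = 0 := by rw [md_smul, ha.1]; ring
    have ec : GF.mdot c ((-l) • a) = -l := by rw [md_smul, hca]; ring
    refine off_core' R ha hsym hcn hac hφ hherm hG hf (W1 := Wdg a c ((-l) • a))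
      (W := {y : V | 1 < GF.mdot a y ∧ GF.mdot c y < -l - 1}) ⟨isTest_bar hf, hcb, ?_⟩ ?_ ?_
      ?_ hXs h0 (h1 _ (isTest_bar hf) hcb) v
    · rw [hts]
      intro z hz
      refine ⟨?_, ?_⟩
      · rw [md_sub, ea]
        linarith [hs z hz]
      · rw [md_sub, ec]
        linarith [(abs_le.1 (hB0 z hz)).1]
    · refine big_two (c := c - a) one_pos one_pos ?_ ?_
      · rw [md_sub, hac, ha.1, sub_zero]
      · rw [md_sub, hca, hcn.1, zero_sub]
    · intro z hz y hy
      exact sep_mp ha hcn hac (by linarith [hs z hz, hy.1])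
        (by linarith [(abs_le.1 (hB0 z hz)).1, hy.2])
    · intro B f' g hB hf' hg v
      refine hL B a c ((-l) • a) f' g v hB ha hcn (by rw [hac]; exact one_pos) ea
        (Or.inl ⟨hf', hg.1, hg.2.1, fun y hy => ?_⟩)
      have hy' := hg.2.2 hy
      refine ⟨?_, ?_⟩
      · rw [md_sub, ec]
        linarith [hy'.2]
      · rw [md_sub, ea]
        linarith [hy'.1]
  · have ea : GF.mdot a (l • a) = 0 := by rw [md_smul, ha.1]; ring
    have ec : GF.mdot c (l • a) = l := by rw [md_smul, hca]; ring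
    refine off_core' R ha hsym hcn hac hφ hherm hG hf (W1 := Wdg c a (l • a))
      (W := {y : V | l + 1 < GF.mdot c y ∧ GF.mdot a y < -1}) ⟨isTest_bar hf, hcb, ?_⟩ ?_ ?_
      ?_ hXs h0 (h1 _ (isTest_bar hf) hcb) v
    · rw [hts]
      intro z hz
      refine ⟨?_, ?_⟩
      · rw [md_sub, ec]
        linarith [(abs_le.1 (hB0 z hz)).2]
      · rw [md_sub, ea]
        linarith [hs z hz]
    · refine big_two (c := a - c) one_pos one_pos ?_ ?_
      · rw [md_sub, hca, hcn.1, sub_zero]
      · rw [md_sub, hac, ha.1, zero_sub]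
    · intro z hz y hy
      exact sep_pm ha hcn hac (by linarith [hs z hz, hy.2])
        (by linarith [(abs_le.1 (hB0 z hz)).2, hy.1])
    · intro B f' g hB hf' hg v
      refine hL B a c (l • a) f' g v hB ha hcn (by rw [hac]; exact one_pos) ea
        (Or.inr ⟨hf', hg.1, hg.2.1, fun y hy => ?_⟩)
      have hy' := hg.2.2 hy
      refine ⟨?_, ?_⟩
      · rw [md_sub, ea]
        linarith [hy'.2]
      · rw [md_sub, ec]
        linarith [hy'.1]

/-- `Xi` commutes with the stress tensor -/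
theorem xi_T_ng (hT : Q.IsStress T) (h : NF.KS Q A K)
    (hL : ∀ m n, LocG Q K (T m n)) {a : V} (ha : IsNull a) (x : V)
    (h1 : ∀ m n f, GF.IsTest f → HasCompactSupport f → Xi A K a x (T m n f Q.vac) = 0)
    (m n : Ix) (f : Fn) (v : D) (hf : GF.IsTest f) (hc : HasCompactSupport f) :
    Xi A K a x (T m n f v) = T m n f (Xi A K a x v) := by
  have R := h.toRep
  obtain ⟨lt, htr, htc, -⟩ := pv_T (A := A) hT R
  have hsX := NF.Xi_symm hT h ha x
  have hherm : ∀ f v w, GF.IsTest f → inner ℂ (T m n f v) w = inner ℂ v (T m n (bar f) w) :=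
    fun f v w hf => hT.herm m n f v w hf
  refine on_plane (hT.bose m n) hherm (htr m n) (htc m n) hsX
    (U := fun i : Bool => if i then {z : Mink | GF.mdot a z.ofLp < 0}
      else {z : Mink | 0 < GF.mdot a z.ofLp}) ?_ (dense_off ha) ?_ hf hc v
  · intro i
    cases i
    · exact isOpen_md.2
    · exact isOpen_md.1
  · intro i F hF u
    refine off_plane' R ha (fun v w => h.symm a v w ha) (hT.bose m n) (hL m n)
      hherm (NF.gl_T R hT m n) hsX (x3_vac hT h ha x) (h1 m n) (isTest_fl F) ?_ ?_ u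
    · have h2 : In univ (fl F) := In_fl.2 ⟨hF.1, fun z _ => mem_univ _⟩
      exact h2.2.1
    · cases i
      · right
        have h2 : In {z | 0 < GF.mdot a z} (fl F) := In_fl.2 ⟨hF.1, fun z hz => by
          simpa [MW] using hF.2 hz⟩
        exact fun z hz => h2.2.2 hz
      · left
        have h2 : In {z | GF.mdot a z < 0} (fl F) := In_fl.2 ⟨hF.1, fun z hz => by
          simpa [MW] using hF.2 hz⟩
        exact fun z hz => h2.2.2 hz

end Vale.Agent.P352.NR

end
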