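import Vale.Agent.P352.NR.Q1
import Vale.Agent.P352.NR.Q2
import Vale.Agent.P352.ND.X3e

/-!
# P352 NR: local null generators are bounded on the orbits of the translations
-/

set_option linter.all false

noncomputable section

open MeasureTheory Filter Topology SchwartzMap Complex Set
open scoped SchwartzMap ComplexConjugate ContDiff LineDeriv

namespace Vale.Agent.P352.NR

open GF (Ix V Fn Fld Theory Sch IsLor bas o sim pd tr ev bar)
open H246 H496 H755 H15 H846 H246R H746 N86 NC NF ND
open UniformSpace (Completion)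

variable {D : Type*} [NormedAddCommGroup D] [InnerProductSpace ℂ D]
variable {Q : GF.Theory D} {T : Ix → Ix → GF.Fld D} {J : Ix → GF.Fld D}
variable {A : (V → V) → D → D} {G : V → D → D}

/-- the translations in one direction -/
lemma flow_tr (R : H15.Rep Q A) (x : V) :
    Flow (fun t : ℝ => Q.U 1 GF.one (t • x)) (A fun _ => x) where
  zero v := by
    show Q.U 1 GF.one ((0 : ℝ) • x) v = v
    rw [zero_smul, Uone]
  add s t v := by
    show Q.U 1 GF.one (s • x) (Q.U 1 GF.one (t • x) v) = _
    rw [Uadd1, ← add_smul]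
  inner t v w := Q.U_inner 1 GF.one (t • x) v w one_pos isLor_one
  der v := NF.e1_der R x v

/-- the second derivatives vanish, without bounds -/
theorem xi_ng' (hT : Q.IsStress T) (hJ : IsVirial Q T J) (h : KS Q A G) (hP : PCh Q T A)
    (hL : ∀ m n, LocG Q G (T m n)) {a : V} (ha : IsNull a) (x : V) (v : D) :
    Xi A G a x v = 0 := by
  obtain ⟨b, hb, hab⟩ := H755.exists_dual ha
  refine xi_all hT h ha hab (fun v => ?_) x v
  exact xi_of_boost hT h ha hb hab (fun v => com_P hT h.toRep hP (NF.Xi_symm hT h ha b)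
    (fun m n f v hf hc => xi_T_ng hT h hL ha b
      (fun m n f hf _ => xi_single hT hJ h ha b m n f hf) m n f v hf hc)
    (NF.f4_Nf_sim a b) v) v

/-- **The generators are quadratic along the translations.** -/
theorem quad_ng (h : KS Q A G) {a : V} (ha : IsNull a) (x : V) (hx : ∀ v, Xi A G a x v = 0)
    (t : ℝ) (v : D) : G a (Q.U 1 GF.one (t • x) v) = Q.U 1 GF.one (t • x)
      (G a v + (t : ℂ) • (I • (G a (A (fun _ => x) v) - A (fun _ => x) (G a v))) +
        ((t ^ 2 / 2 : ℝ) : ℂ) • ((2 : ℂ) • A (fun _ => cK a x) v)) := by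
  have R := h.toRep
  set P : D → D := A (fun _ => x) with hP
  have hPa : Adj P P := fun v w => A_symm R (const_sim x) v w
  have hK : Adj (G a) (G a) := fun v w => h.symm a v w ha
  have hPm : ∀ u w : D, P (u - w) = P u - P w := fun u w => by
    rw [sub_eq_add_neg, ← neg_one_smul ℂ w, hPa.add, hPa.smul, neg_one_smul, sub_eq_add_neg]
  have hq : Qfl (fun t : ℝ => Q.U 1 GF.one (t • x)) P (G a)
      (fun v => I • (G a (P v) - P (G a v))) (fun v => (2 : ℂ) • A (fun _ => cK a x) v) :=
    { flow_tr R x with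
      s0 := hK
      s1 := fun v w => by
        show inner ℂ (I • (G a (P v) - P (G a v))) w = inner ℂ v (I • (G a (P w) - P (G a w)))
        rw [inner_smul_left, inner_smul_right, conj_I, inner_sub_left, inner_sub_right, hK, hPa,
          hPa, hK]
        ring
      c0 := fun v => rfl
      c1 := fun v => by
        have h1 := hx v
        unfold Xi NC.Pg at h1
        rw [← hP, sub_eq_zero] at h1
        show (2 : ℂ) • A (fun _ => cK a x) v = I • (I • (G a (P (P v)) - P (G a (P v))) -
          P (I • (G a (P v) - P (G a v))))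
        rw [← h1, hPa.smul, hPm, ← smul_sub, smul_smul, I_mul_I, two_smul, neg_one_smul]
        abel
      c2 := fun t v => by
        show (2 : ℂ) • A (fun _ => cK a x) (Q.U 1 GF.one (t • x) v) =
          Q.U 1 GF.one (t • x) ((2 : ℂ) • A (fun _ => cK a x) v)
        have e1 : ∀ u w : D, Q.U 1 GF.one (t • x) (u + w) =
            Q.U 1 GF.one (t • x) u + Q.U 1 GF.one (t • x) w := fun u w =>
          ext_inner_left ℂ fun z => by
            rw [inner_add_right, ← H834.nl_move', ← H834.nl_move', ← H834.nl_move',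
              inner_add_right]
        rw [NF.e1_PU R, two_smul, two_smul, e1] }
  exact (int_quad hq t v).2

/-- **Boundedness.** -/
theorem bdd_ng (hT : Q.IsStress T) (hJ : IsVirial Q T J) (h : KS Q A G) (hP : PCh Q T A)
    (hL : ∀ m n, LocG Q G (T m n)) {a : V} (ha : IsNull a) (x : V) (v : D) :
    ∃ C, ∀ t : ℝ, |t| ≤ 1 → ‖G a (Q.U 1 GF.one (t • x) v)‖ ≤ C := by
  set C1 : D := I • (G a (A (fun _ => x) v) - A (fun _ => x) (G a v)) with hC1
  set C2 : D := (2 : ℂ) • A (fun _ => cK a x) v with hC2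
  refine ⟨‖G a v‖ + ‖C1‖ + ‖C2‖, fun t ht => ?_⟩
  rw [quad_ng h ha x (xi_ng' hT hJ h hP hL ha x) t v, ← hC1, ← hC2,
    (flow_tr h.toRep x).norm t]
  have h1 : ‖(t : ℂ) • C1‖ ≤ ‖C1‖ := by
    rw [norm_smul, Complex.norm_real, Real.norm_eq_abs]
    exact mul_le_of_le_one_left (norm_nonneg _) ht
  have h2 : ‖((t ^ 2 / 2 : ℝ) : ℂ) • C2‖ ≤ ‖C2‖ := by
    rw [norm_smul, Complex.norm_real, Real.norm_eq_abs]
    refine mul_le_of_le_one_left (norm_nonneg _) ?_
    rw [abs_of_nonneg (by positivity)]
    have h3 : t ^ 2 ≤ 1 := by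
      rw [← sq_abs]
      exact pow_le_one₀ (abs_nonneg _) ht
    linarith
  exact (norm_add_le _ _).trans (add_le_add ((norm_add_le _ _).trans (add_le_add le_rfl h1)) h2)

end Vale.Agent.P352.NR

end
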