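import Vale.Agent.P352.NR.Defs
import Vale.Agent.P352.H834.NL

/-!
# P352: commutators with the generators of the deformations of null hyperplanes
-/

set_option linter.all false

noncomputable section

open MeasureTheory SchwartzMap Complex Filter Topology
open scoped SchwartzMap ComplexConjugate ENNReal LineDeriv

namespace Vale.Agent.P352.NR

open GF (Ix V Fn Sch ev pd bar sim bas o)
open H246 H496 H834
open UniformSpace (Completion)

variable {D : Type*} [NormedAddCommGroup D] [InnerProductSpace ℂ D]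
variable {Q : GF.Theory D} {A : (V → V) → D → D}
variable {alg : Set V → Set (D → D)} {G : V → D → D}

lemma nd_comm (N : NDer Q A alg G) {a c x y : V} {W : Set V} (ha : IsNull a)
    (hc : IsNull c) (hac : 0 < GF.mdot a c) (hy : GF.mdot a y = GF.mdot a x)
    (hW : W = Wdg a c y ∨ W = Wdg c a y) {X Y Y2 : D → D}
    (hX : X ∈ alg W) (hY : ∀ v w, inner ℂ (Y v) w = inner ℂ v (Y2 w))
    (hYc : ∀ Z ∈ alg W, ∀ v, Y (Z v) = Z (Y v)) (v : D) :
    Gx Q G a x (X (Y v)) - X (Gx Q G a x (Y v)) = Y (Gx Q G a x (X v) - X (Gx Q G a x v)) :=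
  (N.comm a c x y W ha hc hac hy hW X hX).2 Y ⟨⟨Y2, hY⟩, hYc⟩ v

/-- **Net locality of the translated generators.** -/
theorem net_comm_tr (N : NDer Q A alg G) {a c x y : V} (ha : IsNull a)
    (hc : IsNull c) (hac : 0 < GF.mdot a c) (hy : GF.mdot a y = GF.mdot a x) {X Y Y2 : D → D}
    (hX : X ∈ alg (Wdg a c y)) (hY : ∀ v w, inner ℂ (Y v) w = inner ℂ v (Y2 w))
    (hYc : ∀ Z ∈ alg (Wdg a c y), ∀ v, Y (Z v) = Z (Y v)) (v : D) :
    Gx Q G a x (X (Y v)) - X (Gx Q G a x (Y v)) = Y (Gx Q G a x (X v) - X (Gx Q G a x v)) :=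
  nd_comm N ha hc hac hy (Or.inl rfl) hX hY hYc v

/-- **Net locality of the translated generators**, the other side. -/
theorem net_comm_tr' (N : NDer Q A alg G) {a c x y : V} (ha : IsNull a)
    (hc : IsNull c) (hac : 0 < GF.mdot a c) (hy : GF.mdot a y = GF.mdot a x) {X Y Y2 : D → D}
    (hX : X ∈ alg (Wdg c a y)) (hY : ∀ v w, inner ℂ (Y v) w = inner ℂ v (Y2 w))
    (hYc : ∀ Z ∈ alg (Wdg c a y), ∀ v, Y (Z v) = Z (Y v)) (v : D) :
    Gx Q G a x (X (Y v)) - X (Gx Q G a x (Y v)) = Y (Gx Q G a x (X v) - X (Gx Q G a x v)) :=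
  nd_comm N ha hc hac hy (Or.inr rfl) hX hY hYc v

lemma nd_Gx0 (a : V) (v : D) : Gx Q G a 0 v = G a v := by
  have h : ∀ v : D, Q.U 1 GF.one (0 : V) v = v := fun v => U1_zero_all (Q := Q) v
  unfold Gx
  rw [neg_zero, h, h]

theorem net_commC (N : NDer Q A alg G) {a c y : V} (ha : IsNull a)
    (hc : IsNull c) (hac : 0 < GF.mdot a c) (hy : GF.mdot a y = 0) {X Y Y2 : D → D}
    (hX : X ∈ alg (Wdg a c y)) (hY : ∀ v w, inner ℂ (Y v) w = inner ℂ v (Y2 w))
    (hYc : ∀ Z ∈ alg (Wdg a c y), ∀ v, Y (Z v) = Z (Y v)) (v : D) :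
    G a (X (Y v)) - X (G a (Y v)) = Y (G a (X v) - X (G a v)) := by
  have h := net_comm_tr N ha hc hac (x := 0) (by rw [hy]; simp [GF.mdot]) hX hY hYc v
  simpa only [nd_Gx0] using h

theorem net_commC' (N : NDer Q A alg G) {a c y : V} (ha : IsNull a)
    (hc : IsNull c) (hac : 0 < GF.mdot a c) (hy : GF.mdot a y = 0) {X Y Y2 : D → D}
    (hX : X ∈ alg (Wdg c a y)) (hY : ∀ v w, inner ℂ (Y v) w = inner ℂ v (Y2 w))
    (hYc : ∀ Z ∈ alg (Wdg c a y), ∀ v, Y (Z v) = Z (Y v)) (v : D) :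
    G a (X (Y v)) - X (G a (Y v)) = Y (G a (X v) - X (G a v)) := by
  have h := net_comm_tr' N ha hc hac (x := 0) (by rw [hy]; simp [GF.mdot]) hX hY hYc v
  simpa only [nd_Gx0] using h

/-- version with `Y` in the algebra of the opposite wedge -/
theorem net_comm (N : NDer Q A alg G) {a c x y : V} (ha : IsNull a)
    (hc : IsNull c) (hac : 0 < GF.mdot a c) (hy : GF.mdot a y = GF.mdot a x) {X Y : D → D}
    (hX : X ∈ alg (Wdg a c y)) (hY : Y ∈ alg (Wdg c a y)) (v : D) :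
    Gx Q G a x (X (Y v)) - X (Gx Q G a x (Y v)) = Y (Gx Q G a x (X v) - X (Gx Q G a x v)) := by
  obtain ⟨Y2, -, hY2⟩ := N.adj _ Y hY
  exact net_comm_tr N ha hc hac hy hX hY2
    (fun Z hZ u => (N.loc a c y ha hc hac Z hZ Y hY u).symm) v

/-- version with `Y` in the algebra of the opposite wedge -/
theorem net_comm' (N : NDer Q A alg G) {a c x y : V} (ha : IsNull a)
    (hc : IsNull c) (hac : 0 < GF.mdot a c) (hy : GF.mdot a y = GF.mdot a x) {X Y : D → D}
    (hX : X ∈ alg (Wdg c a y)) (hY : Y ∈ alg (Wdg a c y)) (v : D) :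
    Gx Q G a x (X (Y v)) - X (Gx Q G a x (Y v)) = Y (Gx Q G a x (X v) - X (Gx Q G a x v)) := by
  obtain ⟨Y2, -, hY2⟩ := N.adj _ Y hY
  exact net_comm_tr' N ha hc hac hy hX hY2
    (fun Z hZ u => N.loc a c y ha hc hac Y hY Z hZ u) v

end Vale.Agent.P352.NR
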