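import Vale.Agent.P352.ND.X0
import Vale.Agent.P352.ND.N1
import Vale.Agent.P352.NR.Base

/-!
# P352 NR: `Xi = 0` and the neutral charge, with the local bound on the orbits of the translations
-/

set_option linter.all false

noncomputable section

open MeasureTheory Filter Topology SchwartzMap Complex Asymptotics
open scoped SchwartzMap ComplexConjugate ContDiff LineDeriv

namespace Vale.Agent.P352.NR

open GF (Ix V Fn Fld Theory Sch IsLor bas o sim pd tr ev bar)
open H246 H496 H755 H15 H846 H246R H746 N86 NC NF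
open H121 (Cop)
open G (NGen)
open ND (x0_prod gk gk_eq CK cop_b cop_symm cop_vac k_shift)
open UniformSpace (Completion)

variable {D : Type*} [NormedAddCommGroup D] [InnerProductSpace ℂ D]
variable {Q : GF.Theory D} {T : Ix → Ix → GF.Fld D} {J : Ix → GF.Fld D}
variable {A : (V → V) → D → D} {K : V → D → D}

/-- the operators `K a` are locally bounded on the orbits of the translations -/
def LB (Q : GF.Theory D) (K : V → D → D) : Prop := ∀ a b v, IsNull a →
  ∃ C : ℝ, ∀ t : ℝ, |t| ≤ 1 → ‖K a (Q.U 1 GF.one (t • b) v)‖ ≤ C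

lemma x0_loc (hl : LB Q K) {a : V} (ha : IsNull a) (b : V) (v : D) (u : ℝ) :
    ∃ C, ∀ᶠ h in 𝓝 u, ‖K a (Q.U 1 GF.one (-(h • b)) v)‖ ≤ C := by
  obtain ⟨C, hC⟩ := hl a b (Q.U 1 GF.one (-(u • b)) v) ha
  refine ⟨C, ?_⟩
  filter_upwards [Metric.ball_mem_nhds u one_pos] with h hh
  have h1 : |h - u| < 1 := by simpa [Real.dist_eq] using hh
  have h2 := hC (-(h - u)) (by rw [abs_neg]; exact h1.le)
  rw [Uadd1] at h2
  have e : -(h - u) • b + -(u • b) = -(h • b) := by module
  rwa [e] at h2

/-- the derivative of the matrix elements -/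
lemma gk_der (h : KS Q A K) (hl : LB Q K) {a : V} (ha : IsNull a) (b : V) (v w : D) (u : ℝ) :
    HasDerivAt (gk Q K a b v w) (I * gk Q K a b v (A (fun _ => b) w) u -
      I * gk Q K a b (A (fun _ => b) v) w u) u := by
  have R := h.toRep
  have hK : Adj (K a) (K a) := fun v w => h.symm a v w ha
  obtain ⟨C, hC⟩ := x0_loc hl ha b v u
  have h1 := x0_prod hK (e12_der R b w u) (e12_der R b v u) hC
  refine h1.congr_deriv ?_
  unfold gk
  rw [← e12_comm R, ← e12_comm R, inner_neg_left, inner_smul_left, conj_I]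
  have e : K a (-(I • A (fun _ => b) (Q.U 1 GF.one (-(u • b)) v))) =
      (-I) • K a (A (fun _ => b) (Q.U 1 GF.one (-(u • b)) v)) := by
    rw [← neg_smul, hK.smul]
  rw [e, inner_smul_right]
  ring

theorem ck_of (h : KS Q A K) (hl : LB Q K) : CK Q K := by
  intro a b v w ha hb
  have e : (fun u : ℝ => inner ℂ w (Q.U 1 GF.one (u • b) (K a (Q.U 1 GF.one (-(u • b)) v)))) =
      gk Q K a b v w := funext fun u => (gk_eq a b v w u).symm
  rw [e]
  exact continuous_iff_continuousAt.2 fun u => (gk_der h hl ha b v w u).continuousAt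

/-- `Xi = 0` implies that the second differences vanish. -/
theorem sd_of_xi (h : KS Q A K) (hl : LB Q K) {a b : V} (ha : IsNull a) (hb : IsNull b)
    (hab : GF.mdot a b = 1) (hx : ∀ v, Xi A K a b v = 0) (u t : ℝ) (v : D) :
    Sd Q A K a b u t v = 0 := by
  have R := h.toRep
  set P : D → D := A (fun _ => b) with hP
  have hPs : ∀ v w, inner ℂ (P v) w = inner ℂ v (P w) := A_symm R (const_sim b)
  have hcK : (fun _ : V => cK a b) = fun z : V => (fun _ : V => b) z + (1 : ℝ) • (fun _ : V => b) z := by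
    funext z n
    simp only [cK, hab, hb.1, Pi.sub_apply, Pi.add_apply, Pi.smul_apply, smul_eq_mul]
    ring
  have hA2 : ∀ z : D, A (fun _ => cK a b) z = P z + P z := by
    intro z
    rw [hcK]
    have h1 := R.add 0 0 1 _ _ z (const_sim b) (const_sim b)
    rw [h1, ofReal_one, one_smul]
  have key : ∀ (w : D) (u : ℝ), 2 * gk Q K a b (P v) (P w) u - gk Q K a b (P (P v)) w u -
      gk Q K a b v (P (P w)) u = 4 * inner ℂ w (P v) := by
    intro w u
    have h1 := congrArg (fun z => inner ℂ (Q.U 1 GF.one (-(u • b)) w) z)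
      (hx (Q.U 1 GF.one (-(u • b)) v))
    unfold Xi NC.Pg at h1
    simp only [inner_sub_right, inner_smul_right, inner_zero_right, hA2, inner_add_right] at h1
    have e1 : inner ℂ (Q.U 1 GF.one (-(u • b)) w) (P (Q.U 1 GF.one (-(u • b)) v)) =
        inner ℂ w (P v) := by
      rw [hP, e12_comm R, Q.U_inner _ _ _ _ _ one_pos isLor_one]
    unfold gk
    rw [hP, ← e12_comm R, ← e12_comm R, ← e12_comm R, ← e12_comm R, ← e12_comm R, ← e12_comm R,
      ← hP]
    rw [hPs, hPs, hPs, ← e1]
    rw [← hP] at h1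
    linear_combination h1
  refine ext_inner_left ℂ fun w => ?_
  set c : ℂ := inner ℂ w (P v) with hc
  have h1 : ∀ u, HasDerivAt (fun u : ℝ => gk Q K a b v w u - 2 * (u : ℂ) ^ 2 * c)
      (I * gk Q K a b v (P w) u - I * gk Q K a b (P v) w u - 4 * (u : ℂ) * c) u := by
    intro u
    have h4 : HasDerivAt (fun u : ℝ => 2 * (u : ℂ) ^ 2 * c) (2 * (2 * (u : ℂ)) * c) u := by
      have h5 : HasDerivAt (fun u : ℝ => (u : ℂ) ^ 2) (2 * (u : ℂ)) u := by
        have h6 := (ofRealCLM.hasDerivAt (x := u)).mul (ofRealCLM.hasDerivAt (x := u))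
        refine (h6.congr_deriv ?_).congr_of_eventuallyEq (Eventually.of_forall fun y => ?_)
        · simp
          ring
        · simp [pow_two]
      exact (h5.const_mul 2).mul_const c
    refine ((gk_der h hl ha b v w u).sub h4).congr_deriv ?_
    rw [← hP]
    ring
  have h2 : ∀ u, HasDerivAt (fun u : ℝ => I * gk Q K a b v (P w) u - I * gk Q K a b (P v) w u -
      4 * (u : ℂ) * c) 0 u := by
    intro u
    have h3 := (gk_der h hl ha b v (P w) u).const_mul I
    have h4 := (gk_der h hl ha b (P v) w u).const_mul I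
    have h5 : HasDerivAt (fun u : ℝ => 4 * (u : ℂ) * c) (4 * 1 * c) u :=
      ((ofRealCLM.hasDerivAt (x := u)).const_mul 4).mul_const c
    refine ((h3.sub h4).sub h5).congr_deriv ?_
    have h6 := key w u
    have h7 : I * I = -1 := I_mul_I
    rw [← hP]
    linear_combination h6 + (gk Q K a b v (P (P w)) u - 2 * gk Q K a b (P v) (P w) u +
      gk Q K a b (P (P v)) w u) * h7
  have h3 := e12_aff h1 h2 u t
  rw [Sd_Ku, inner_sub_right, inner_sub_right, inner_add_right, inner_smul_right,
    inner_smul_right, inner_zero_right]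
  have e : ∀ s : ℝ, inner ℂ w (Ku Q K a b s v) = gk Q K a b v w s := fun s => (gk_eq a b v w s).symm
  rw [e, e, e]
  push_cast at h3 ⊢
  linear_combination h3

/-- the same charge -/
lemma cc_eq (h : KS Q A K) (hl : LB Q K) {a b : V} (ha : IsNull a) (hb : IsNull b)
    (hab : GF.mdot a b = 1) (hx : ∀ v, Xi A K a b v = 0) (v : D) :
    ND.Cc Q A K a v = Cop Q A K a b v := by
  have hc := Classical.choose_spec (H755.exists_dual ha)
  simp only [ND.Cc, dif_pos ha]
  exact cop_b h (ck_of h hl) ha hb hab (fun u t v => sd_of_xi h hl ha hb hab hx u t v) hc.1 hc.2 v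

/-- **Special conformal generators up to neutral charges**. -/
theorem ngen_of (h : KS Q A K) (hl : LB Q K)
    (hx : ∀ a b, IsNull a → IsNull b → GF.mdot a b = 1 → ∀ v, Xi A K a b v = 0)
    (hJ : ∀ a b, IsNull a → IsNull b → GF.mdot a b = 1 → ∀ m f v, GF.IsTest f →
      Cop Q A K a b (J m f v) = J m f (Cop Q A K a b v))
    (hK : ∀ a b, IsNull a → IsNull b → GF.mdot a b = 1 → ∀ c v, IsNull c →
      Cop Q A K a b (K c v) = K c (Cop Q A K a b v))
    (hA : ∀ a b, IsNull a → IsNull b → GF.mdot a b = 1 → ∀ X v, IsSim 0 X →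
      Cop Q A K a b (A X v) = A X (Cop Q A K a b v)) :
    NGen Q J A K (ND.Cc Q A K) := by
  have e : ∀ (a : V) (ha : IsNull a) (v : D), ND.Cc Q A K a v =
      Cop Q A K a (Classical.choose (H755.exists_dual ha)) v := fun a ha v => by
    simp only [ND.Cc, dif_pos ha]
  have hc : ∀ (a : V) (ha : IsNull a), IsNull (Classical.choose (H755.exists_dual ha)) ∧
      GF.mdot a (Classical.choose (H755.exists_dual ha)) = 1 := fun a ha =>
    Classical.choose_spec (H755.exists_dual ha)
  have htra : ∀ a x v, IsNull a → Q.U 1 GF.one x (K a (Q.U 1 GF.one (-x) v)) = K a v +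
      A (fun z => -(2 * GF.mdot a x) • z + (2 * GF.mdot x z) • a - (2 * GF.mdot a z) • x +
        cK a x) v - ((2 * GF.mdot a x : ℝ) : ℂ) • ND.Cc Q A K a v := by
    intro a x v ha
    obtain ⟨hb, hab⟩ := hc a ha
    rw [e a ha]
    exact k_shift h (ck_of h hl) ha hb hab
      (fun u t v => sd_of_xi h hl ha hb hab (hx a _ ha hb hab) u t v) x v
  have hs : ∀ a v w, IsNull a → inner ℂ (ND.Cc Q A K a v) w = inner ℂ v (ND.Cc Q A K a w) := by
    intro a v w ha
    rw [e a ha, e a ha]
    exact cop_symm h ha _ v w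
  exact
    { toRep := h.toRep
      symm := h.symm
      cov := h.cov
      tra := htra
      comJ := fun a m f v ha hf => by
        rw [e a ha, e a ha]
        exact hJ a _ ha (hc a ha).1 (hc a ha).2 m f v hf
      comK := fun a b v ha hb => by
        rw [e a ha, e a ha]
        exact hK a _ ha (hc a ha).1 (hc a ha).2 b v hb
      comA := fun a r X v ha hX => f7_comA hs h.toRep
        (fun a s v ha hs' => f7_dil h.toRep h.cov htra a s v ha hs') ha
        (fun X v hX => by
          rw [e a ha, e a ha]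
          exact hA a _ ha (hc a ha).1 (hc a ha).2 X v hX) hX v
      vac := fun a ha => by
        rw [e a ha]
        exact cop_vac h ha _ (f7_K_vac h.cov ha)
      symC := hs }

end Vale.Agent.P352.NR

end
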