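import Vale.Agent.P352.ND.X3e
import Vale.Agent.P352.NR.X

/-!
# P352 NR: the second derivative `Xi` of the generators commutes with the stress tensor and vanishes
-/

set_option linter.all false

noncomputable section

open MeasureTheory Filter Topology SchwartzMap Complex Set
open scoped SchwartzMap ComplexConjugate ContDiff LineDeriv

namespace Vale.Agent.P352.NR

open GF (Ix V Fn Fld Theory Sch IsLor bas o sim pd tr ev bar)
open H246 H496 H755 H15 H846 H246R H746 N86 NC
open ND (NetL PCh com_P xi_of_boost x3_vac isOpen_md dense_off on_plane off_plane xi_single)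
open UniformSpace (Completion)

variable {D : Type*} [NormedAddCommGroup D] [InnerProductSpace ℂ D]
variable {Q : GF.Theory D} {T : Ix → Ix → GF.Fld D} {J : Ix → GF.Fld D}
variable {A : (V → V) → D → D} {K G : V → D → D}
variable {alg : Set V → Set (D → D)}

/-- the polynomials in the fields are in the algebra of the net -/
lemma x3_mem (N : NDer Q A alg G) {W : Set V} {X X' : D → D} (hX : Al Q W X X') : X ∈ alg W := by
  induction hX with
  | one => exact N.one W
  | add X X' Y Y' _ _ h1 h2 => exact N.plus W X h1 Y h2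
  | smul c X X' _ h => exact N.smul W c X h
  | fld A B g X X' hA hB hAB hg _ h => exact N.prod W (A g) (N.fld W A g hA hg) X h

/-- the generators are net local -/
theorem netL_of (N : NDer Q A alg G) {φ : GF.Fld D} (hφ : Q.fld φ) : NetL Q G φ := by
  intro a c x y f X X' v ha hc hac hy h
  rcases h with ⟨hf, hX⟩ | ⟨hf, hX⟩
  · exact net_comm N ha hc hac hy (N.fld _ φ f hφ hf) (x3_mem N hX) v
  · exact net_comm' N ha hc hac hy (N.fld _ φ f hφ hf) (x3_mem N hX) v

/-- the generators are locally bounded on the translates of a vector -/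
theorem lb_of (N : NDer Q A alg G) : LB Q G := N.bdd

/-- **Step (3)**: `Xi` commutes with the stress tensor -/
theorem xi_T_of (hT : Q.IsStress T) (h : NF.KS Q A K) (hl : LB Q K)
    (hL : ∀ m n, NetL Q K (T m n)) {a : V} (ha : IsNull a) (x : V)
    (h1 : ∀ m n f, GF.IsTest f → HasCompactSupport f → Xi A K a x (T m n f Q.vac) = 0)
    (m n : Ix) (f : Fn) (v : D) (hf : GF.IsTest f) (hc : HasCompactSupport f) :
    Xi A K a x (T m n f v) = T m n f (Xi A K a x v) := by
  have R := h.toRep
  obtain ⟨lt, htr, htc, -⟩ := pv_T (A := A) hT R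
  have hsX := NF.Xi_symm hT h ha x
  have hherm : ∀ f v w, GF.IsTest f → inner ℂ (T m n f v) w = inner ℂ v (T m n (bar f) w) :=
    fun f v w hf => hT.herm m n f v w hf
  refine on_plane (hT.bose m n) hherm (htr m n) (htc m n) hsX
    (U := fun i : Bool => if i then {z : Mink | GF.mdot a z.ofLp < 0}
      else {z : Mink | 0 < GF.mdot a z.ofLp}) ?_ (dense_off ha) ?_ hf hc v
  · intro i
    cases i
    · exact isOpen_md.2
    · exact isOpen_md.1
  · intro i F hF u
    refine off_plane R ha (fun v w => h.symm a v w ha) (fun x v => hl a x v ha) (hT.bose m n) (hL m n)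
      hherm (NF.gl_T R hT m n) hsX (x3_vac hT h ha x) (h1 m n) (isTest_fl F) ?_ ?_ u
    · have h2 : In univ (fl F) := In_fl.2 ⟨hF.1, fun z _ => mem_univ _⟩
      exact h2.2.1
    · cases i
      · right
        have h2 : In {z | 0 < GF.mdot a z} (fl F) := In_fl.2 ⟨hF.1, fun z hz => by
          simpa [MW] using hF.2 hz⟩
        exact fun z hz => h2.2.2 hz
      · left
        have h2 : In {z | GF.mdot a z < 0} (fl F) := In_fl.2 ⟨hF.1, fun z hz => by
          simpa [MW] using hF.2 hz⟩
        exact fun z hz => h2.2.2 hz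

/-- **Step (3)** for the generators -/
theorem xiT (hT : Q.IsStress T) (hJ : IsVirial Q T J) (N : NDer Q A alg G) {a : V}
    (ha : IsNull a) (x : V) (m n : Ix) (f : Fn) (v : D) (hf : GF.IsTest f)
    (hc : HasCompactSupport f) : Xi A G a x (T m n f v) = T m n f (Xi A G a x v) :=
  xi_T_of hT N.toKS (lb_of N) (fun m n => netL_of N (Q.bose_fld _ (hT.bose m n))) ha x
    (fun m n f hf _ => xi_single hT hJ N.toKS ha x m n f hf) m n f v hf hc

/-- the second derivatives of the generators vanish -/
theorem hx_of (hT : Q.IsStress T) (hJ : IsVirial Q T J) (N : NDer Q A alg G)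
    (hP : PCh Q T A) (a b : V) (ha : IsNull a) (hb : IsNull b) (hab : GF.mdot a b = 1) (v : D) :
    Xi A G a b v = 0 :=
  xi_of_boost hT N.toKS ha hb hab (fun v => com_P hT N.toRep hP (NF.Xi_symm hT N.toKS ha b)
    (fun m n f v hf hc => xiT hT hJ N ha b m n f v hf hc) (NF.f4_Nf_sim a b) v) v

/-- the second differences vanish -/
theorem sd_nd (hT : Q.IsStress T) (hJ : IsVirial Q T J) (N : NDer Q A alg G)
    (hP : PCh Q T A) {a b : V} (ha : IsNull a) (hb : IsNull b) (hab : GF.mdot a b = 1)
    (u t : ℝ) (v : D) : Sd Q A G a b u t v = 0 :=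
  sd_of_xi N.toKS (lb_of N) ha hb hab (hx_of hT hJ N hP a b ha hb hab) u t v

end Vale.Agent.P352.NR

end
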