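import Vale.Agent.P352.ND.C7a

/-!
# P352 NR: symmetric operators that are quadratic under a one parameter group on the level of
generators are quadratic

No continuity or boundedness is assumed; the proof uses the Baire category theorem.
-/

set_option linter.all false

noncomputable section

open Filter Topology Set Asymptotics

namespace Vale.Agent.P352.NR

open ND

variable {D : Type*} [NormedAddCommGroup D] [InnerProductSpace ℂ D]

/-- `C1` and `C2` are the first two derivatives of `C0` along the flow -/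
structure Qfl (U : ℝ → D → D) (A C0 C1 C2 : D → D) : Prop extends Flow U A where
  s0 : ∀ v w, Inner.inner ℂ (C0 v) w = Inner.inner ℂ v (C0 w)
  s1 : ∀ v w, Inner.inner ℂ (C1 v) w = Inner.inner ℂ v (C1 w)
  c0 : ∀ v, C1 v = Complex.I • (C0 (A v) - A (C0 v))
  c1 : ∀ v, C2 v = Complex.I • (C1 (A v) - A (C1 v))
  c2 : ∀ t v, C2 (U t v) = U t (C2 v)

section

variable {U : ℝ → D → D} {A C C' : D → D}

lemma q_cinner (h : Flow U A) (hs : ∀ v w, Inner.inner ℂ (C v) w = Inner.inner ℂ v (C w))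
    (v w : D) : Continuous fun s => (Inner.inner ℂ w (C (U s v)) : ℂ) := by
  have e : (fun s => (Inner.inner ℂ w (C (U s v)) : ℂ)) = fun s => Inner.inner ℂ (C w) (U s v) := by
    funext s
    rw [hs]
  rw [e]
  exact continuous_const.inner (h.cont v)

lemma q_closed (h : Flow U A) (hs : ∀ v w, Inner.inner ℂ (C v) w = Inner.inner ℂ v (C w))
    (v : D) (n : ℕ) : IsClosed {t | ‖C (U t v)‖ ≤ n} := by
  have e : {t | ‖C (U t v)‖ ≤ n} =
      ⋂ w : D, {t | ‖(Inner.inner ℂ w (C (U t v)) : ℂ)‖ ≤ ‖w‖ * n} := by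
    ext t
    simp only [mem_setOf_eq, mem_iInter]
    constructor
    · intro ht w
      exact (norm_inner_le_norm _ _).trans (mul_le_mul_of_nonneg_left ht (norm_nonneg _))
    · intro ht
      have h1 := ht (C (U t v))
      have h2 : ‖(Inner.inner ℂ (C (U t v)) (C (U t v)) : ℂ)‖ = ‖C (U t v)‖ * ‖C (U t v)‖ := by
        rw [inner_self_eq_norm_sq_to_K, norm_pow, pow_two]
        simp
      rw [h2] at h1
      by_contra hlt
      push Not at hlt
      have h3 : 0 < ‖C (U t v)‖ := (Nat.cast_nonneg n).trans_lt hlt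
      exact absurd (le_of_mul_le_mul_left h1 h3) (not_le.2 hlt)
  rw [e]
  exact isClosed_iInter fun w => isClosed_le (q_cinner h hs v w).norm continuous_const

/-- the generator is symmetric -/
lemma q_symA (h : Flow U A) (x y : D) : (Inner.inner ℂ (A x) y : ℂ) = Inner.inner ℂ x (A y) := by
  have d1 : HasDerivAt (fun s => (Inner.inner ℂ (U s x) (U s y) : ℂ))
      (Inner.inner ℂ (U 0 x) (Complex.I • A y) + Inner.inner ℂ (Complex.I • A x) (U 0 y)) 0 :=
    (h.der x).inner ℂ (h.der y)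
  have d2 : HasDerivAt (fun s => (Inner.inner ℂ (U s x) (U s y) : ℂ)) 0 0 := by
    have : (fun s => (Inner.inner ℂ (U s x) (U s y) : ℂ)) = fun _ => Inner.inner ℂ x y := by
      funext s
      exact h.inner s x y
    rw [this]
    exact hasDerivAt_const _ _
  have d3 := d1.unique d2
  rw [h.zero, h.zero, inner_smul_right, inner_smul_left, Complex.conj_I] at d3
  have hI : Complex.I ≠ 0 := Complex.I_ne_zero
  have d4 : Complex.I * ((Inner.inner ℂ x (A y) : ℂ) - Inner.inner ℂ (A x) y) = 0 := by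
    linear_combination d3
  exact (sub_eq_zero.1 ((mul_eq_zero.1 d4).resolve_left hI)).symm

/-- the derivative of the matrix elements of `U(-s) C U(s)` where `C U(s) v` is bounded -/
lemma q_der (h : Flow U A) (hs : ∀ v w, Inner.inner ℂ (C v) w = Inner.inner ℂ v (C w))
    (hc : ∀ v, C' v = Complex.I • (C (A v) - A (C v))) (v w : D) {t : ℝ} (ht : Lbd U C v t) :
    HasDerivAt (fun s => (Inner.inner ℂ (U s w) (C (U s v)) : ℂ))
      (Inner.inner ℂ (U t w) (C' (U t v))) t := by
  obtain ⟨n, hn⟩ := ht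
  have hw := h.der_at t w
  have hv := h.der_at t v
  set w' : D := Complex.I • A (U t w) with hw'
  set v' : D := Complex.I • A (U t v) with hv'
  have t1 : HasDerivAt (fun s => (Inner.inner ℂ (U s w - U t w - (s - t) • w') (C (U s v)) : ℂ))
      (0 : ℂ) t := by
    have h1 : (fun s => U s w - U t w - (s - t) • w') =o[𝓝 t] fun s => s - t := hw.isLittleO
    have h3 : (fun s => (Inner.inner ℂ (U s w - U t w - (s - t) • w') (C (U s v)) : ℂ)) =O[𝓝 t]
        fun s => U s w - U t w - (s - t) • w' := by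
      refine IsBigO.of_bound n ?_
      filter_upwards [hn] with s hs
      refine (norm_inner_le_norm _ _).trans ?_
      rw [mul_comm]
      exact mul_le_mul_of_nonneg_right hs (norm_nonneg _)
    rw [hasDerivAt_iff_isLittleO]
    simpa using h3.trans_isLittleO h1
  have t2 : HasDerivAt (fun s => (Inner.inner ℂ (C (U t w)) (U s v) : ℂ))
      (Inner.inner ℂ (C (U t w)) v') t :=
    ((innerSL ℂ (C (U t w))).restrictScalars ℝ).hasFDerivAt.comp_hasDerivAt t hv
  have t3 : HasDerivAt (fun s => (Inner.inner ℂ (C w') (U s v) : ℂ)) (Inner.inner ℂ (C w') v') t :=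
    ((innerSL ℂ (C w')).restrictScalars ℝ).hasFDerivAt.comp_hasDerivAt t hv
  have t4 : HasDerivAt (fun s : ℝ => ((s - t : ℝ) : ℂ)) ((1 : ℝ) : ℂ) t :=
    ((hasDerivAt_id t).sub_const t).ofReal_comp
  have t6 := (t1.add t2).add (t4.mul t3)
  have e : (fun s => (Inner.inner ℂ (U s w) (C (U s v)) : ℂ)) =
      ((fun s => (Inner.inner ℂ (U s w - U t w - (s - t) • w') (C (U s v)) : ℂ)) +
        fun s => (Inner.inner ℂ (C (U t w)) (U s v) : ℂ)) +
        (fun s : ℝ => ((s - t : ℝ) : ℂ)) * fun s => (Inner.inner ℂ (C w') (U s v) : ℂ) := by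
    funext s
    simp only [Pi.add_apply, Pi.mul_apply]
    rw [hs, hs, inner_sub_left, inner_sub_left, inner_smul_left_eq_smul, Complex.real_smul]
    ring
  rw [e]
  refine t6.congr_deriv ?_
  have hA := q_symA h
  have e1 : (Inner.inner ℂ (C w') (U t v) : ℂ) =
      -Complex.I * Inner.inner ℂ (U t w) (A (C (U t v))) := by
    rw [hs, hw', inner_smul_left, Complex.conj_I, hA]
  have e2 : (Inner.inner ℂ (C (U t w)) v' : ℂ) =
      Complex.I * Inner.inner ℂ (U t w) (C (A (U t v))) := by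
    rw [hv', inner_smul_right, hs]
  have e3 : (Inner.inner ℂ (U t w) (C' (U t v)) : ℂ) = Complex.I *
      (Inner.inner ℂ (U t w) (C (A (U t v))) - Inner.inner ℂ (U t w) (A (C (U t v)))) := by
    rw [hc, inner_smul_right, inner_sub_right]
  rw [e2, e3]
  simp only [sub_self, Complex.ofReal_zero, zero_mul, Complex.ofReal_one, one_mul, zero_add,
    add_zero]
  rw [e1]
  ring

end

section

variable {U : ℝ → D → D} {A C0 C1 C2 : D → D}

/-- both are bounded near `t` -/
def Lb2 (U : ℝ → D → D) (C0 C1 : D → D) (v : D) (t : ℝ) : Prop := Lbd U C0 v t ∧ Lbd U C1 v t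

lemma lb2_open (v : D) : IsOpen {t | Lb2 U C0 C1 v t} :=
  (lbd_open (U := U) (C := C0) v).inter (lbd_open (U := U) (C := C1) v)

/-- the quadratic formula on open intervals where `C0 U(s) v` and `C1 U(s) v` are locally bounded,
up to the end points -/
lemma Qfl.const (h : Qfl U A C0 C1 C2) (v : D) {I : Set ℝ} (hI : IsOpen I)
    (hI' : IsPreconnected I) (hb : ∀ s ∈ I, Lb2 U C0 C1 v s) {t s : ℝ} (ht : t ∈ I)
    (hs : s ∈ closure I) :
    C1 (U s v) = U (s - t) (C1 (U t v) + ((s - t : ℝ) : ℂ) • C2 (U t v)) ∧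
    C0 (U s v) = U (s - t) (C0 (U t v) + ((s - t : ℝ) : ℂ) • C1 (U t v) +
      (((s - t) ^ 2 / 2 : ℝ) : ℂ) • C2 (U t v)) := by
  have hF := h.toFlow
  have key : ∀ s ∈ I, ∀ z, (Inner.inner ℂ z (C1 (U s v)) : ℂ) =
      Inner.inner ℂ z (U (s - t) (C1 (U t v) + ((s - t : ℝ) : ℂ) • C2 (U t v))) ∧
      (Inner.inner ℂ z (C0 (U s v)) : ℂ) = Inner.inner ℂ z (U (s - t) (C0 (U t v) +
        ((s - t : ℝ) : ℂ) • C1 (U t v) + (((s - t) ^ 2 / 2 : ℝ) : ℂ) • C2 (U t v))) := by
    intro s hs z
    set w : D := U (-s) z with hw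
    have hz : U s w = z := by rw [hw, hF.add, add_neg_cancel, hF.zero]
    have hz' : ∀ u : D, (Inner.inner ℂ z (U (s - t) u) : ℂ) = Inner.inner ℂ (U t w) u := by
      intro u
      rw [← hF.inner (s - t) (U t w) u, hF.add, sub_add_cancel, hz]
    set k : ℂ := Inner.inner ℂ (U t w) (C2 (U t v)) with hk
    have hk' : ∀ r, (Inner.inner ℂ (U r w) (C2 (U r v)) : ℂ) = k := by
      intro r
      rw [hk, h.c2, h.c2, hF.inner, hF.inner]
    set f0 : ℝ → ℂ := fun r => Inner.inner ℂ (U r w) (C0 (U r v)) with hf0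
    set f1 : ℝ → ℂ := fun r => Inner.inner ℂ (U r w) (C1 (U r v)) with hf1
    have d1 : ∀ r ∈ I, HasDerivAt f1 k r := by
      intro r hr
      have := q_der hF h.s1 h.c1 v w (hb r hr).2
      rwa [hk'] at this
    have d0 : ∀ r ∈ I, HasDerivAt f0 (f1 r) r := fun r hr => q_der hF h.s0 h.c0 v w (hb r hr).1
    have dt : ∀ r : ℝ, HasDerivAt (fun r : ℝ => ((r - t : ℝ) : ℂ)) 1 r := by
      intro r
      have := ((hasDerivAt_id r).sub_const t).ofReal_comp
      simpa using this
    have g1 : ∀ r ∈ I, f1 r - ((r - t : ℝ) : ℂ) * k = f1 t := by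
      intro r hr
      have := hI.is_const_of_deriv_eq_zero (f := fun r : ℝ => f1 r - ((r - t : ℝ) : ℂ) * k) hI'
        (fun x hx => (((d1 x hx).fun_sub ((dt x).mul_const k))).differentiableAt.differentiableWithinAt)
        (fun x hx => by
          have := ((d1 x hx).fun_sub ((dt x).mul_const k)).deriv
          rw [this]
          simp) hr ht
      simpa using this
    have d2 : ∀ r ∈ I, HasDerivAt (fun r : ℝ => f0 r - ((r - t : ℝ) : ℂ) * f1 t -
        ((r - t : ℝ) : ℂ) * ((r - t : ℝ) : ℂ) * (k / 2)) 0 r := by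
      intro r hr
      have h5 := ((d0 r hr).fun_sub ((dt r).mul_const (f1 t))).fun_sub
        (((dt r).fun_mul (dt r)).mul_const (k / 2))
      refine h5.congr_deriv ?_
      have := g1 r hr
      linear_combination this
    have g0 : f0 s - ((s - t : ℝ) : ℂ) * f1 t - ((s - t : ℝ) : ℂ) * ((s - t : ℝ) : ℂ) * (k / 2) =
        f0 t := by
      have := hI.is_const_of_deriv_eq_zero hI'
        (fun x hx => (d2 x hx).differentiableAt.differentiableWithinAt)
        (fun x hx => (d2 x hx).deriv) hs ht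
      simpa using this
    have g1' := g1 s hs
    simp only [hf0, hf1] at g0 g1'
    rw [hz] at g0 g1'
    rw [hz', hz', inner_add_right, inner_smul_right, inner_add_right, inner_add_right,
      inner_smul_right, inner_smul_right, ← hk]
    constructor
    · linear_combination g1'
    · push_cast at g0 ⊢
      linear_combination g0
  have c1 : ∀ (u : D), Continuous fun s : ℝ => ((s - t : ℝ) : ℂ) • u := fun u => by fun_prop
  have hU : ∀ (z u : D) (r : ℝ), (Inner.inner ℂ z (U r u) : ℂ) = Inner.inner ℂ (U (-r) z) u := by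
    intro z u r
    rw [← hF.inner r (U (-r) z) u, hF.add, add_neg_cancel, hF.zero]
  have cU : ∀ (z : D), Continuous fun s : ℝ => U (-(s - t)) z := fun z =>
    (hF.cont z).comp (continuous_neg.comp (continuous_id.sub continuous_const))
  constructor
  · refine ext_inner_left ℂ fun z => ?_
    have hcl : IsClosed {s | (Inner.inner ℂ z (C1 (U s v)) : ℂ) =
        Inner.inner ℂ z (U (s - t) (C1 (U t v) + ((s - t : ℝ) : ℂ) • C2 (U t v)))} := by
      refine isClosed_eq (q_cinner hF h.s1 v z) ?_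
      simp only [hU]
      exact (cU z).inner (continuous_const.add (c1 _))
    exact closure_minimal (fun s hs => (key s hs z).1) hcl hs
  · refine ext_inner_left ℂ fun z => ?_
    have hcl : IsClosed {s | (Inner.inner ℂ z (C0 (U s v)) : ℂ) =
        Inner.inner ℂ z (U (s - t) (C0 (U t v) + ((s - t : ℝ) : ℂ) • C1 (U t v) +
        (((s - t) ^ 2 / 2 : ℝ) : ℂ) • C2 (U t v)))} := by
      refine isClosed_eq (q_cinner hF h.s0 v z) ?_
      simp only [hU]
      refine (cU z).inner ((continuous_const.add (c1 _)).add ?_)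
      fun_prop
    exact closure_minimal (fun s hs => (key s hs z).2) hcl hs

/-- **Quadratic flows.** -/
theorem int_quad (h : Qfl U A C0 C1 C2) (t : ℝ) (v : D) :
    C1 (U t v) = U t (C1 v + (t : ℂ) • C2 v) ∧
    C0 (U t v) = U t (C0 v + (t : ℂ) • C1 v + ((t ^ 2 / 2 : ℝ) : ℂ) • C2 v) := by
  have hF := h.toFlow
  have hall : ∀ t, Lb2 U C0 C1 v t := by
    by_contra hne
    push Not at hne
    set E : Set ℝ := {t | Lb2 U C0 C1 v t}ᶜ with hE
    have hEc : IsClosed E := (lb2_open v).isClosed_compl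
    obtain ⟨e1, he1⟩ := hne
    have hEn : Nonempty E := ⟨⟨e1, he1⟩⟩
    have hEcs : CompleteSpace E := hEc.completeSpace_coe
    obtain ⟨n, ⟨x0, hx0⟩⟩ := nonempty_interior_of_iUnion_of_closed
      (f := fun n : ℕ => {x : E | ‖C0 (U (x : ℝ) v)‖ ≤ n} ∩ {x : E | ‖C1 (U (x : ℝ) v)‖ ≤ n})
      (fun n => ((q_closed hF h.s0 v n).preimage continuous_subtype_val).inter
        ((q_closed hF h.s1 v n).preimage continuous_subtype_val)) (by
        rw [eq_univ_iff_forall]
        intro x
        obtain ⟨n, hn⟩ := exists_nat_ge (max ‖C0 (U (x : ℝ) v)‖ ‖C1 (U (x : ℝ) v)‖)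
        exact mem_iUnion.2 ⟨n, (le_max_left _ _).trans hn, (le_max_right _ _).trans hn⟩)
    obtain ⟨V, hV, hVe⟩ := isOpen_induced_iff.1
      (isOpen_interior : IsOpen (interior
        ({x : E | ‖C0 (U (x : ℝ) v)‖ ≤ n} ∩ {x : E | ‖C1 (U (x : ℝ) v)‖ ≤ n})))
    have hx0V : (x0 : ℝ) ∈ V := by
      have : x0 ∈ Subtype.val ⁻¹' V := by rw [hVe]; exact hx0
      exact this
    have hVn : ∀ x ∈ V, x ∈ E → ‖C0 (U x v)‖ ≤ n ∧ ‖C1 (U x v)‖ ≤ n := by
      intro x hx hxE
      have h1 : (⟨x, hxE⟩ : E) ∈ Subtype.val ⁻¹' V := hx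
      rw [hVe] at h1
      have h2 : (⟨x, hxE⟩ : E) ∈ ({x : E | ‖C0 (U (x : ℝ) v)‖ ≤ n} ∩
        {x : E | ‖C1 (U (x : ℝ) v)‖ ≤ n}) := interior_subset h1
      exact h2
    obtain ⟨ε, hε, hεV⟩ := Metric.isOpen_iff.1 hV _ hx0V
    set M : ℝ := n + 2 * ε * ‖C2 v‖ with hM
    -- the bound on the ball
    have hball : ∀ t ∈ Metric.ball (x0 : ℝ) ε, ‖C1 (U t v)‖ ≤ M ∧
        ‖C0 (U t v)‖ ≤ n + 2 * ε * M + (2 * ε) ^ 2 / 2 * ‖C2 v‖ := by
      have hn0 : (0 : ℝ) ≤ n := Nat.cast_nonneg n
      have hM0 : 0 ≤ M := by positivity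
      intro t ht
      by_cases htE : t ∈ E
      · obtain ⟨h1, h2⟩ := hVn t (hεV ht) htE
        refine ⟨h2.trans (le_add_of_nonneg_right (by positivity)), h1.trans ?_⟩
        rw [add_assoc]
        exact le_add_of_nonneg_right (by positivity)
      have htL : Lb2 U C0 C1 v t := by
        by_contra hc
        exact htE hc
      -- the end point
      obtain ⟨b, I, hI, hI', hIb, htI, hbI, hbE, hbB⟩ : ∃ (b : ℝ) (I : Set ℝ), IsOpen I ∧
          IsPreconnected I ∧ (∀ s ∈ I, Lb2 U C0 C1 v s) ∧ t ∈ I ∧ b ∈ closure I ∧ b ∈ E ∧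
            b ∈ Metric.ball (x0 : ℝ) ε := by
        obtain ⟨δ, hδ, hδL⟩ := Metric.isOpen_iff.1 (lb2_open (U := U) (C0 := C0) (C1 := C1) v)
          t htL
        have hx0E : (x0 : ℝ) ∈ E := x0.2
        have hne : t ≠ x0 := fun h => htE (h ▸ hx0E)
        rw [Metric.mem_ball, Real.dist_eq] at ht
        rcases lt_or_gt_of_ne hne with hlt | hgt
        · have hS : IsCompact (E ∩ Icc t x0) := isCompact_Icc.inter_left hEc
          have hSn : (E ∩ Icc t (x0 : ℝ)).Nonempty := ⟨x0, hx0E, hlt.le, le_rfl⟩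
          have hb := hS.sInf_mem hSn
          set b : ℝ := sInf (E ∩ Icc t x0) with hbdef
          have htb : t < b := lt_of_le_of_ne hb.2.1 fun h => htE (h ▸ hb.1)
          refine ⟨b, Ioo (t - δ) b, isOpen_Ioo, isPreconnected_Ioo, fun s hs => ?_,
            ⟨by linarith, htb⟩, ?_, hb.1, ?_⟩
          · rcases lt_or_ge s t with h1 | h1
            · refine hδL ?_
              rw [Metric.mem_ball, Real.dist_eq, abs_lt]
              constructor <;> linarith [hs.1]
            · by_contra hc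
              have h2 : b ≤ s := csInf_le hS.bddBelow ⟨hc, h1, (hs.2.trans_le hb.2.2).le⟩
              exact absurd hs.2 (not_lt.2 h2)
          · rw [closure_Ioo (by linarith)]
            exact ⟨by linarith, le_rfl⟩
          · rw [Metric.mem_ball, Real.dist_eq, abs_lt]
            have h3 := (abs_lt.1 ht).1
            constructor <;> linarith [hb.2.2]
        · have hS : IsCompact (E ∩ Icc (x0 : ℝ) t) := isCompact_Icc.inter_left hEc
          have hSn : (E ∩ Icc (x0 : ℝ) t).Nonempty := ⟨x0, hx0E, le_rfl, hgt.le⟩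
          have hb := hS.sSup_mem hSn
          set b : ℝ := sSup (E ∩ Icc (x0 : ℝ) t) with hbdef
          have htb : b < t := lt_of_le_of_ne hb.2.2 fun h => htE (h ▸ hb.1)
          refine ⟨b, Ioo b (t + δ), isOpen_Ioo, isPreconnected_Ioo, fun s hs => ?_,
            ⟨htb, by linarith⟩, ?_, hb.1, ?_⟩
          · rcases lt_or_ge t s with h1 | h1
            · refine hδL ?_
              rw [Metric.mem_ball, Real.dist_eq, abs_lt]
              constructor <;> linarith [hs.2]
            · by_contra hc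
              have h2 : s ≤ b := le_csSup hS.bddAbove ⟨hc, (hb.2.1.trans_lt hs.1).le, h1⟩
              exact absurd hs.1 (not_lt.2 h2)
          · rw [closure_Ioo (by linarith)]
            exact ⟨le_rfl, by linarith⟩
          · rw [Metric.mem_ball, Real.dist_eq, abs_lt]
            have h3 := (abs_lt.1 ht).2
            constructor <;> linarith [hb.2.1]
      obtain ⟨k1, k0⟩ := h.const v hI hI' hIb htI hbI
      obtain ⟨b0, b1⟩ := hVn b (hεV hbB) hbE
      have hbt : |b - t| ≤ 2 * ε := by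
        rw [Metric.mem_ball, Real.dist_eq, abs_lt] at ht hbB
        rw [abs_le]
        constructor <;> linarith [ht.1, ht.2, hbB.1, hbB.2]
      have n2 : ‖C2 (U t v)‖ = ‖C2 v‖ := by rw [h.c2, hF.norm]
      have l1 : ‖C1 (U t v)‖ ≤ M := by
        have e1 : ‖C1 (U t v) + ((b - t : ℝ) : ℂ) • C2 (U t v)‖ ≤ n := by
          rw [← hF.norm (b - t), ← k1]
          exact b1
        have e2 : ‖((b - t : ℝ) : ℂ) • C2 (U t v)‖ ≤ 2 * ε * ‖C2 v‖ := by
          rw [norm_smul, n2, Complex.norm_real, Real.norm_eq_abs]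
          exact mul_le_mul_of_nonneg_right hbt (norm_nonneg _)
        have e3 := norm_sub_le (C1 (U t v) + ((b - t : ℝ) : ℂ) • C2 (U t v))
          (((b - t : ℝ) : ℂ) • C2 (U t v))
        rw [add_sub_cancel_right] at e3
        linarith
      refine ⟨l1, ?_⟩
      have e1 : ‖C0 (U t v) + ((b - t : ℝ) : ℂ) • C1 (U t v) +
          (((b - t) ^ 2 / 2 : ℝ) : ℂ) • C2 (U t v)‖ ≤ n := by
        rw [← hF.norm (b - t), ← k0]
        exact b0
      have e2 : ‖((b - t : ℝ) : ℂ) • C1 (U t v)‖ ≤ 2 * ε * M := by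
        rw [norm_smul, Complex.norm_real, Real.norm_eq_abs]
        exact mul_le_mul hbt l1 (norm_nonneg _) (by positivity)
      have e4 : ‖(((b - t) ^ 2 / 2 : ℝ) : ℂ) • C2 (U t v)‖ ≤ (2 * ε) ^ 2 / 2 * ‖C2 v‖ := by
        rw [norm_smul, n2, Complex.norm_real, Real.norm_eq_abs]
        refine mul_le_mul_of_nonneg_right ?_ (norm_nonneg _)
        rw [abs_of_nonneg (by positivity), ← sq_abs (b - t)]
        have := pow_le_pow_left₀ (abs_nonneg (b - t)) hbt 2
        linarith
      have e3 := norm_sub_le (C0 (U t v) + ((b - t : ℝ) : ℂ) • C1 (U t v) +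
          (((b - t) ^ 2 / 2 : ℝ) : ℂ) • C2 (U t v)) (((b - t : ℝ) : ℂ) • C1 (U t v) +
          (((b - t) ^ 2 / 2 : ℝ) : ℂ) • C2 (U t v))
      have e5 := norm_add_le (((b - t : ℝ) : ℂ) • C1 (U t v))
          ((((b - t) ^ 2 / 2 : ℝ) : ℂ) • C2 (U t v))
      have e6 : C0 (U t v) + ((b - t : ℝ) : ℂ) • C1 (U t v) +
          (((b - t) ^ 2 / 2 : ℝ) : ℂ) • C2 (U t v) - (((b - t : ℝ) : ℂ) • C1 (U t v) +
          (((b - t) ^ 2 / 2 : ℝ) : ℂ) • C2 (U t v)) = C0 (U t v) := by abel
      rw [e6] at e3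
      linarith
    have h3 : Lb2 U C0 C1 v x0 := by
      obtain ⟨N0, hN0⟩ := exists_nat_ge (n + 2 * ε * M + (2 * ε) ^ 2 / 2 * ‖C2 v‖)
      obtain ⟨N1, hN1⟩ := exists_nat_ge M
      refine ⟨⟨N0, ?_⟩, ⟨N1, ?_⟩⟩
      · filter_upwards [Metric.ball_mem_nhds (x0 : ℝ) hε] with s hs
        exact (hball s hs).2.trans hN0
      · filter_upwards [Metric.ball_mem_nhds (x0 : ℝ) hε] with s hs
        exact (hball s hs).1.trans hN1
    exact x0.2 h3
  have h1 := h.const v isOpen_univ isPreconnected_univ (fun s _ => hall s) (mem_univ (0 : ℝ))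
    (s := t) (by rw [closure_univ]; exact mem_univ _)
  rw [sub_zero, hF.zero] at h1
  exact h1

end

end Vale.Agent.P352.NR

end
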