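import Vale.Agent.P352.NF.F6
import Vale.Agent.P352.NR.X3

/-!
# P352 ND: the charge `C` commutes with the stress tensor and the virial current

Only the net locality of the generators of the null deformations is used, on two null planes above
the support of the test function.
-/

set_option linter.all false

noncomputable section

open MeasureTheory SchwartzMap Filter Topology Set
open scoped SchwartzMap ContDiff ComplexConjugate

namespace Vale.Agent.P352.NR

open GF (Ix V Fn Fld bas eta o bar)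
open H755 H496 H15 H121 H246 NF
open H834 (Gx)

variable {D : Type*} [NormedAddCommGroup D] [InnerProductSpace ℂ D]
variable {Q : GF.Theory D} {T : Ix → Ix → GF.Fld D} {J : Ix → GF.Fld D}
  {A : (V → V) → D → D} {alg : Set V → Set (D → D)} {G : V → D → D}

/-- products of fields belong to the algebras of the net -/
lemma al_mem (N : NDer Q A alg G) {W O : Set V} (hWO : W ⊆ O) {X X' : D → D}
    (hX : Al Q W X X') : X ∈ alg O := by
  induction hX with
  | one => exact N.one O
  | add X X' Y Y' _ _ h1 h2 => exact N.plus O _ h1 _ h2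
  | smul c X X' _ h1 => exact N.smul O c _ h1
  | fld A B g X X' hA _ _ hg _ h1 =>
    exact N.prod O _ (N.fld O A g hA ⟨hg.1, hg.2.1, hg.2.2.trans hWO⟩) _ h1

section

variable {a b : V} {C : D → D} (ha : IsNull a) (hb : IsNull b) (hab : GF.mdot a b = 1)
include ha hb hab

/-- the commutator of the charge with a bosonic field commutes with the algebra of a wedge -/
lemma c6_comm (N : NDer Q A alg G)
    (htra : ∀ (u : ℝ) v, Q.U 1 GF.one (u • b) (G a (Q.U 1 GF.one (-(u • b)) v)) =
      G a v + A (XX a (u • b)) v - ((2 * u : ℝ) : ℂ) • C v)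
    {φ φ' : GF.Fld D} (hφ : Q.bose φ) (hφ' : Q.fld φ')
    (hadj : ∀ f v w, GF.IsTest f → inner ℂ (φ f v) w = inner ℂ v (φ' (bar f) w))
    (hL : LocA Q A φ) {f : Fn} (hf : GF.IsTest f) (hc : HasCompactSupport f)
    (hv : C Q.vac = 0) (h0 : C (φ f Q.vac) = 0) : ∃ M M' : ℝ, ∀ X X',
      Al Q {y | M < GF.mdot a y ∧ GF.mdot b y < M'} X X' →
      C (φ f (X Q.vac)) = φ f (C (X Q.vac)) := by
  -- bounds on the support
  obtain ⟨A0, hA0⟩ : ∃ A0, ∀ z ∈ tsupport f, GF.mdot a z ≤ A0 := by
    have h1 : IsCompact ((fun z : V => GF.mdot a z) '' tsupport f) :=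
      IsCompact.image hc (H846.contDiff_mdot a).continuous
    obtain ⟨c, hc⟩ := h1.bddAbove
    exact ⟨c, fun z hz => hc ⟨z, hz, rfl⟩⟩
  obtain ⟨B0, hB0⟩ : ∃ B0, ∀ z ∈ tsupport f, -B0 ≤ GF.mdot b z := by
    have h1 : IsCompact ((fun z : V => GF.mdot b z) '' tsupport f) :=
      IsCompact.image hc (H846.contDiff_mdot b).continuous
    obtain ⟨c, hc⟩ := h1.bddBelow
    exact ⟨-c, fun z hz => by rw [neg_neg]; exact hc ⟨z, hz, rfl⟩⟩
  refine ⟨A0 + 4, -B0 - 4, fun X X' hX => ?_⟩
  have hba : GF.mdot b a = 1 := by rw [H755.md_comm]; exact hab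
  have hsepW : ∀ x ∈ tsupport f, ∀ y ∈ {y : V | A0 + 4 < GF.mdot a y ∧ GF.mdot b y < -B0 - 4},
      GF.mdot (x - y) (x - y) < 0 := fun x hx y hy =>
    sep_mp ha hb hab (by linarith [hA0 x hx, hy.1]) (by linarith [hB0 x hx, hy.2])
  have e : ∀ u z, inner ℂ u (φ f z) = inner ℂ (φ' (bar f) u) z := by
    intro u z
    rw [← inner_conj_symm, hadj f z u hf, inner_conj_symm]
  refine ext_inner_left ℂ fun w => ?_
  -- the commutators of `K` and `C`, applied to the vectors
  set cmt : (D → D) → ℂ := fun O => inner ℂ w (O (φ f (X Q.vac))) -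
    inner ℂ (φ' (bar f) w) (O (X Q.vac)) - inner ℂ (X' w) (O (φ f Q.vac)) +
      inner ℂ (φ' (bar f) (X' w)) (O Q.vac) with hcmt
  have hA : ∀ r Y, IsSim r Y → cmt (A Y) = 0 := by
    intro r Y hY
    have k := hL r Y f _ X X' Q.vac hY hf hc hsepW hX
    have k2 := congrArg (fun z => inner ℂ w z) k
    simp only [inner_sub_right] at k2
    rw [← hX.adj', inner_sub_right, e, e] at k2
    simp only [hcmt]
    linear_combination k2
  have hK : ∀ u : ℝ, A0 < u → u < A0 + 4 → cmt (Gx Q G a (u • b)) = 0 := by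
    intro u h1 h2
    have hf' : φ f ∈ alg (Wdg a b (u • b + (-B0 - 4) • a)) := by
      refine N.fld _ _ f (Q.bose_fld _ hφ) ⟨hf, hc, fun z hz => ⟨?_, ?_⟩⟩
      · simp only [H755.md_sub, H755.md_add, H755.md_smul, hab, ha.1]
        linarith [hA0 z hz]
      · simp only [H755.md_sub, H755.md_add, H755.md_smul, hba, hb.1]
        linarith [hB0 z hz]
    have hX' : X ∈ alg (Wdg b a (u • b + (-B0 - 4) • a)) := by
      have hsub : {y : V | A0 + 4 < GF.mdot a y ∧ GF.mdot b y < -B0 - 4} ⊆
          Wdg b a (u • b + (-B0 - 4) • a) := by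
        rintro z ⟨h3, h4⟩
        constructor
        · simp only [H755.md_sub, H755.md_add, H755.md_smul, hba, hb.1]
          linarith
        · simp only [H755.md_sub, H755.md_add, H755.md_smul, hab, ha.1]
          linarith
      exact al_mem N hsub hX
    have k := net_comm N ha hb (by rw [hab]; exact one_pos)
      (x := u • b) (by simp only [H755.md_add, H755.md_smul, hab, ha.1]; ring) hf' hX' Q.vac
    have k2 := congrArg (fun z => inner ℂ w z) k
    simp only [inner_sub_right] at k2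
    rw [← hX.adj', inner_sub_right, e, e] at k2
    simp only [hcmt]
    linear_combination k2
  have hKC : ∀ u : ℝ, A0 < u → u < A0 + 4 → cmt (G a) - 2 * (u : ℂ) * cmt C = 0 := by
    intro u h1 h2
    have k := hK u h1 h2
    have hAu := hA _ _ (XX_sim a (u • b))
    have ht : ∀ v, Gx Q G a (u • b) v = G a v + A (XX a (u • b)) v - ((2 * u : ℝ) : ℂ) • C v :=
      fun v => htra u v
    simp only [hcmt] at k hAu ⊢
    simp only [ht, inner_sub_right, inner_add_right, inner_smul_right] at k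
    push_cast at k
    linear_combination k - hAu
  have k1 : cmt C = 0 := by
    have e1 := hKC (A0 + 1) (by linarith) (by linarith)
    have e2 := hKC (A0 + 2) (by linarith) (by linarith)
    push_cast at e1 e2
    linear_combination (1 / 2 : ℂ) * (e1 - e2)
  simp only [hcmt, h0, hv, inner_zero_right, sub_zero, add_zero] at k1
  rw [e]
  exact sub_eq_zero.1 k1

/-- locality of the charge, test functions with compact support -/
lemma c6_loc_cs (N : NDer Q A alg G)
    (htra : ∀ (u : ℝ) v, Q.U 1 GF.one (u • b) (G a (Q.U 1 GF.one (-(u • b)) v)) =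
      G a v + A (XX a (u • b)) v - ((2 * u : ℝ) : ℂ) • C v)
    (hsym : ∀ v w, inner ℂ (C v) w = inner ℂ v (C w))
    {φ φ' : GF.Fld D} (hφ : Q.fld φ) (hφ' : Q.bose φ')
    (hadj : ∀ f v w, GF.IsTest f → inner ℂ (φ f v) w = inner ℂ v (φ' (bar f) w))
    (hL : LocA Q A φ') (hv : C Q.vac = 0)
    (h0 : ∀ f, GF.IsTest f → HasCompactSupport f → C (φ' f Q.vac) = 0)
    {f : Fn} (hf : GF.IsTest f) (hc : HasCompactSupport f) (v : D) :
    C (φ f v) = φ f (C v) := by
  have hcb : HasCompactSupport (bar f) := by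
    rw [HasCompactSupport, tsupport_bar]; exact hc
  obtain ⟨M, M', hM⟩ := c6_comm ha hb hab N htra hφ' hφ (H246.adj_symm hadj) hL (isTest_bar hf)
    hcb hv (h0 _ (isTest_bar hf) hcb)
  have hba : GF.mdot b a = 1 := by rw [H755.md_comm]; exact hab
  have hW : Big (MW {y : V | M < GF.mdot a y ∧ GF.mdot b y < M'}) := by
    refine big_two (c := b - a) one_pos one_pos ?_ ?_
    · rw [H755.md_sub, hab, ha.1, sub_zero]
    · rw [H755.md_sub, hba, hb.1, zero_sub]
  rw [← sub_eq_zero]
  refine dens_eq (Q := Q) ha hb hab hW fun X X' hX => ?_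
  have e : ∀ u z, inner ℂ u (φ f z) = inner ℂ (φ' (bar f) u) z := by
    intro u z
    rw [← inner_conj_symm, hadj f z u hf, inner_conj_symm]
  rw [inner_sub_right, ← hsym, e, ← hM X X' hX, hsym, ← e, sub_self]

/-- **Locality of the charge.** If the charge annihilates the vectors `φ' f Ω`, it commutes with
the adjoint `φ` of the bosonic field `φ'`. -/
theorem c6_loc (N : NDer Q A alg G)
    (htra : ∀ (u : ℝ) v, Q.U 1 GF.one (u • b) (G a (Q.U 1 GF.one (-(u • b)) v)) =
      G a v + A (XX a (u • b)) v - ((2 * u : ℝ) : ℂ) • C v)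
    (hsym : ∀ v w, inner ℂ (C v) w = inner ℂ v (C w))
    {φ φ' : GF.Fld D} (hφ : Q.fld φ) (hφ' : Q.bose φ')
    (hadj : ∀ f v w, GF.IsTest f → inner ℂ (φ f v) w = inner ℂ v (φ' (bar f) w))
    (hL : LocA Q A φ') (hv : C Q.vac = 0)
    (h0 : ∀ f, GF.IsTest f → HasCompactSupport f → C (φ' f Q.vac) = 0)
    {f : Fn} (hf : GF.IsTest f) (v : D) : C (φ f v) = φ f (C v) := by
  obtain ⟨F, rfl⟩ := exists_fl hf
  obtain ⟨g, hg, hlim⟩ := exists_compact_seq F
  refine ext_inner_left ℂ fun w => ?_
  rw [← hsym]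
  have c1 : Continuous fun F : 𝓢(Mink, ℂ) => inner ℂ (C w) (φ (fl F) v) :=
    continuous_const.inner (fld_cont hφ v)
  have c2 : Continuous fun F : 𝓢(Mink, ℂ) => inner ℂ w (φ (fl F) (C v)) :=
    continuous_const.inner (fld_cont hφ _)
  have l1 := (c1.tendsto F).comp hlim
  have l2 := (c2.tendsto F).comp hlim
  refine tendsto_nhds_unique l1 (l2.congr fun n => ?_)
  simp only [Function.comp_apply]
  rw [hsym, c6_loc_cs ha hb hab N htra hsym hφ hφ' hadj hL hv h0 (isTest_fl _)
    (hasCompactSupport_fl (hg n))]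

end

section

variable {a b : V} {C : D → D}

lemma c6_tra (k : H731.KC Q A a (G a) C) (hab : GF.mdot a b = 1) (u : ℝ) (v : D) :
    Q.U 1 GF.one (u • b) (G a (Q.U 1 GF.one (-(u • b)) v)) = G a v + A (XX a (u • b)) v -
      ((2 * u : ℝ) : ℂ) • C v := by
  have h : Q.U 1 GF.one (u • b) (G a (Q.U 1 GF.one (-(u • b)) v)) = G a v + A (XX a (u • b)) v -
      ((2 * GF.mdot a (u • b) : ℝ) : ℂ) • C v := k.tra (u • b) v
  rw [H755.md_smul, hab, mul_one] at h
  exact h

/-- **the charge commutes with the stress tensor** -/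
theorem c6_T (hT : Q.IsStress T) (N : NDer Q A alg G)
    (k : H731.KC Q A a (G a) C) (m n : Ix) {f : Fn} (hf : GF.IsTest f) (v : D) :
    C (T m n f v) = T m n f (C v) := by
  obtain ⟨b, hb, hab⟩ := exists_dual k.nul
  exact c6_loc k.nul hb hab N (c6_tra k hab) k.cs (Q.bose_fld _ (hT.bose m n))
    (hT.bose m n) (hT.herm m n) (locA_T hT k.rep m n) (kc_vac k)
    (fun f hf _ => kc_T hT k m n hf) hf v

/-- **the charge commutes with the virial current** -/
theorem c6_J (hJ : IsVirial Q T J) (N : NDer Q A alg G)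
    (k : H731.KC Q A a (G a) C) (m : Ix) {f : Fn} (hf : GF.IsTest f) (v : D) :
    C (J m f v) = J m f (C v) := by
  obtain ⟨b, hb, hab⟩ := exists_dual k.nul
  exact c6_loc k.nul hb hab N (c6_tra k hab) k.cs (Q.bose_fld _ (hJ.bose m))
    (hJ.bose m) (hJ.herm m) (locA_J hJ k.rep m) (kc_vac k)
    (fun f hf _ => kc_J hJ k m hf) hf v

end

end Vale.Agent.P352.NR

end
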