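import Vale.Agent.P352.NF.Defs

open MeasureTheory Filter Topology

namespace Vale.Agent.P352.NR

open GF H246 H496 H755 H15

noncomputable section

variable {D : Type*} [NormedAddCommGroup D] [InnerProductSpace ℂ D]

/-- The commutant of a set of operators, in the operators on `D` that have an adjoint on `D`. -/
def Cmt (M : Set (D → D)) : Set (D → D) :=
  {Y | (∃ Y' : D → D, ∀ v w, inner ℂ (Y v) w = inner ℂ v (Y' w)) ∧ ∀ X ∈ M, ∀ v, Y (X v) = X (Y v)}

/-- The commutator of `U(x) G_a U(-x)` with `X`. -/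
def cmG (Q : Theory D) (G : V → D → D) (a x : V) (X : D → D) (v : D) : D :=
  Q.U 1 GF.one x (G a (Q.U 1 GF.one (-x) (X v))) - X (Q.U 1 GF.one x (G a (Q.U 1 GF.one (-x) v)))

/-- Generators of the deformations of null hyperplanes. The symmetric operators `G a`, `a` null,
have the commutation relations of special conformal generators with the similitudes that preserve
the null hyperplane `a·z = 0` (`KS`) and are locally bounded on the orbits of the translations. The
algebras `alg O` contain the fields smeared in `O`, the algebras of opposite wedges commute, and,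
for a wedge `W` bounded by the null hyperplane `a·z = a·x`, the commutator with `U(x) G_a U(-x)`
maps `alg W` into its bicommutant. -/
structure NDer (Q : Theory D) (A : (V → V) → D → D) (alg : Set V → Set (D → D))
    (G : V → D → D) : Prop extends NF.KS Q A G where
  adj : ∀ O, ∀ X ∈ alg O, ∃ Y ∈ alg O, ∀ v w, inner ℂ (X v) w = inner ℂ v (Y w)
  one : ∀ O, (fun v => v) ∈ alg O
  plus : ∀ O, ∀ X ∈ alg O, ∀ Y ∈ alg O, (fun v => X v + Y v) ∈ alg O
  smul : ∀ O (c : ℂ), ∀ X ∈ alg O, (fun v => c • X v) ∈ alg O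
  prod : ∀ O, ∀ X ∈ alg O, ∀ Y ∈ alg O, (fun v => X (Y v)) ∈ alg O
  mono : ∀ O O', O ⊆ O' → alg O ⊆ alg O'
  fld : ∀ O B f, Q.fld B → In O f → B f ∈ alg O
  loc : ∀ a b v, IsNull a → IsNull b → 0 < GF.mdot a b → ∀ X ∈ alg (Wdg a b v),
    ∀ Y ∈ alg (Wdg b a v), ∀ w, X (Y w) = Y (X w)
  bdd : ∀ a b v, IsNull a → ∃ C : ℝ, ∀ t : ℝ, |t| ≤ 1 → ‖G a (Q.U 1 GF.one (t • b) v)‖ ≤ C
  comm : ∀ a c x y W, IsNull a → IsNull c → 0 < GF.mdot a c → GF.mdot a y = GF.mdot a x →
    W = Wdg a c y ∨ W = Wdg c a y → ∀ X ∈ alg W, cmG Q G a x X ∈ Cmt (Cmt (alg W))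

end

end Vale.Agent.P352.NR
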