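import Vale.Agent.P352.ND.E8b
import Vale.Agent.P352.NR.X3

/-!
# P352 NR: the charge `C` commutes with the generator `K`
-/

set_option linter.all false

noncomputable section

open MeasureTheory SchwartzMap Complex Filter Topology
open scoped SchwartzMap ComplexConjugate LineDeriv ContDiff

namespace Vale.Agent.P352.NR

open GF (Ix V Fn Fld Theory Sch IsLor bas o sim pd tr ev bar)
open H246 H496 H755 H15 H746 NF
open H846 (Nf)
open H731 (KC)
open H148 (XK isSim_XK)
open H834 (Gx)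
open ND (e8_lm e8_jac e8_alg e8_dK e8_A1K e8_A2K e8_adjc e8_sub EE ee_symm ee_cov ee_vac ee_dil
  ee_tr z_T PCh com_P x0_boost)

variable {D : Type*} [NormedAddCommGroup D] [InnerProductSpace ℂ D]
variable {Q : GF.Theory D} {T : Ix → Ix → GF.Fld D} {A : (V → V) → D → D}
variable {alg : Set V → Set (D → D)} {G : V → D → D}

lemma e8_mem4 (N : NDer Q A alg G) {W : Set V} (c : Ix → ℂ) {X : Ix → D → D}
    (h : ∀ k, X k ∈ alg W) : (fun v => ∑ k, c k • X k v) ∈ alg W := by
  simp only [Fin.sum_univ_four]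
  exact N.plus _ _ (N.plus _ _ (N.plus _ _ (N.smul _ _ _ (h 0)) _ (N.smul _ _ _ (h 1))) _
    (N.smul _ _ _ (h 2))) _ (N.smul _ _ _ (h 3))

/-- the commutators of the generators with `T(f)` are in the algebra of the region of `f` -/
lemma e8_AT (N : NDer Q A alg G) (hT : Q.IsStress T) (R : H15.Rep Q A) {W : Set V} {f : Fn}
    (hf : In W f) {r : ℝ} {X : V → V} (hX : IsSim r X) (m n : Ix) :
    (fun v => A X (T m n f v) - T m n f (A X v)) ∈ alg W := by
  obtain ⟨c, w, hw, hX'⟩ := id hX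
  have e : (fun v => A X (T m n f v) - T m n f (A X v)) = fun v => Complex.I •
      (∑ k, (w k m : ℂ) • T k n f v + ∑ l, (w l n : ℂ) • T m l f v + T m n (vf X f) v) := by
    funext v
    rw [A_T R hT hw hX' hf.1 m n v, add_sub_cancel_left]
  have hv : In W (vf X f) := ⟨isTest_vf hX hf.1,
    IsCompact.of_isClosed_subset hf.2.1 (isClosed_tsupport _) (f4_vf hX hf.1 hf.2.1), (f4_vf hX hf.1 hf.2.1).trans hf.2.2⟩
  rw [e]
  exact N.smul _ _ _ (N.plus _ _ (N.plus _ _
    (e8_mem4 N _ fun k => N.fld _ _ _ (Q.bose_fld _ (hT.bose k n)) hf) _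
    (e8_mem4 N _ fun l => N.fld _ _ _ (Q.bose_fld _ (hT.bose m l)) hf)) _
    (N.fld _ _ _ (Q.bose_fld _ (hT.bose m n)) hv))

/-- **locality**: the commutator of the charge with `[K, T(f)]` commutes with the algebra of a wedge -/
theorem e8_local (N : NDer Q A alg G) (hT : Q.IsStress T) {b c : V}
    {C : D → D} (k : KC Q A b (G b) C) (hc : IsNull c) (hbc : GF.mdot b c = 1) {m n : Ix} {f : Fn}
    (hCT : ∀ v, C (T m n f v) = T m n f (C v)) {y : V} (hy : GF.mdot b y = 0)
    (hf : In (Wdg b c y) f) {P : D → D} (hP : P ∈ alg (Wdg c b (y + c))) (v : D) :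
    C (G b (T m n f (P v)) - T m n f (G b (P v))) -
      (G b (T m n f (C (P v))) - T m n f (G b (C (P v)))) =
    P (C (G b (T m n f v) - T m n f (G b v)) - (G b (T m n f (C v)) - T m n f (G b (C v)))) := by
  have R := k.rep
  have hb := k.nul
  have hbc' : 0 < GF.mdot b c := by rw [hbc]; exact one_pos
  have hP' : P ∈ alg (Wdg c b y) := N.mono _ _ (e8_sub hc hbc y) hP
  have aT : H496.Adj (T m n f) (T m n (bar f)) := fun v w => hT.herm m n f v w hf.1
  have aK : H496.Adj (G b) (G b) := k.ks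
  have aC : H496.Adj C C := k.cs
  have a1 : H496.Adj (A (H755.Xw b c)) (A (H755.Xw b c)) := A_symm R (Xw_sim b c)
  have a2 : H496.Adj (A fun _ => c) (A fun _ => c) := A_symm R (const_sim c)
  obtain ⟨P2, -, aP⟩ := N.adj _ P hP
  have aP : H496.Adj P P2 := aP
  have aKc : H496.Adj (Gx Q G b c) (Gx Q G b c) := by
    intro v w
    show inner ℂ (Q.U 1 GF.one c _) w = inner ℂ v (Q.U 1 GF.one c _)
    rw [H834.nl_move, k.ks, ← H834.nl_move']
  have aY1 := e8_adjc a1 aT
  have aY2 := e8_adjc a2 aT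
  have aX2 := e8_adjc aK aT
  have mT : T m n f ∈ alg (Wdg b c y) := N.fld _ _ _ (Q.bose_fld _ (hT.bose m n)) hf
  have mY1 := e8_AT N hT R hf (Xw_sim b c) m n
  have mY2 := e8_AT N hT R hf (const_sim c) m n
  -- locality with one generator
  have loc1 : ∀ X ∈ alg (Wdg b c y), ∀ Z ∈ alg (Wdg c b y), ∀ v,
      G b (X (Z v)) - X (G b (Z v)) = Z (G b (X v) - X (G b v)) := by
    intro X hX Z hZ v
    obtain ⟨Z2, -, aZ⟩ := N.adj _ Z hZ
    exact net_commC N hb hc hbc' hy hX aZ (fun W hW u =>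
      (N.loc b c y hb hc hbc' W hW Z hZ u).symm) v
  have cX : ∀ Z ∈ alg (Wdg c b y), ∀ v, e8_lm aX2 (Z v) = Z (e8_lm aX2 v) := fun Z hZ v =>
    loc1 _ mT Z hZ v
  have jac : ∀ {Kx : D → D} (aKx : H496.Adj Kx Kx), (∀ v, Kx (P (e8_lm aX2 v)) -
      P (Kx (e8_lm aX2 v)) = e8_lm aX2 (Kx (P v) - P (Kx v))) → ∀ v, Kx (e8_lm aX2 (P v)) -
      e8_lm aX2 (Kx (P v)) = P (Kx (e8_lm aX2 v) - e8_lm aX2 (Kx v)) := by
    intro Kx aKx h v
    have h1 := h v
    rw [map_sub, cX P hP'] at h1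
    have h2 : P (Kx (e8_lm aX2 v) - e8_lm aX2 (Kx v)) =
        P (Kx (e8_lm aX2 v)) - P (e8_lm aX2 (Kx v)) := map_sub (e8_lm aP) _ _
    rw [cX P hP', h2, sub_eq_sub_iff_add_eq_add]
    rw [sub_eq_sub_iff_add_eq_add] at h1
    rw [h1, add_comm]
  have key := e8_alg (K := e8_lm aK) (C := e8_lm aC) (T := e8_lm aT) (P := e8_lm aP)
    (A1 := e8_lm a1) (A2 := e8_lm a2) (Kc := e8_lm aKc) (Y1 := e8_lm aY1) (Y2 := e8_lm aY2)
    (X2 := e8_lm aX2) (fun v => ?_) hCT (e8_A1K k hc hbc) (e8_A2K k hc hbc) (fun v => rfl)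
    (fun v => rfl) (fun v => rfl) (fun v => loc1 _ mT P hP' v)
    (fun v => N.loc b c y hb hc hbc' _ mY1 P hP' v) (fun v => loc1 _ mY1 P hP' v)
    (fun v => loc1 _ mY2 P hP' v) (jac aK ?_) (jac aKc ?_) v
  · exact key
  · show (2 : ℂ) • C v = G b v - (2 : ℂ) • A (H755.Xw b c) v + (2 : ℂ) • A (fun _ => c) v -
      Q.U 1 GF.one c (G b (Q.U 1 GF.one (-c) v))
    have h4 : A (XX b ((1:ℝ) • c)) v = ((-2 * 1 : ℝ) : ℂ) • A (H755.Xw b c) v +
        ((2 * (1 * 1) : ℝ) : ℂ) • A (fun _ => c) v := H755.A_XXb R hc hbc 1 v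
    rw [one_smul] at h4
    have h5 : A (XK b c) v = A (XX b c) v := rfl
    rw [k.tra c v, h5, h4, hbc]
    push_cast
    module
  · intro v
    exact net_commC' N hb hc hbc' hy hP' aX2 cX v
  · intro v
    exact net_comm_tr' N hb hc hbc' (x := c) (y := y + c) (by rw [md_add, hy, zero_add]) hP aX2
      (fun Z hZ u => cX Z (N.mono _ _ (e8_sub hc hbc y) hZ) u) v

/-- `E` commutes with the stress tensor below the null hyperplane -/
lemma ee_Tw (N : NDer Q A alg G) (hT : Q.IsStress T) {b c : V}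
    {C : D → D} (k : KC Q A b (G b) C) (hc : IsNull c) (hbc : GF.mdot b c = 1)
    (hCT : ∀ m n f v, GF.IsTest f → C (T m n f v) = T m n f (C v))
    (hCA : ∀ (r : ℝ) (X : V → V) v, IsSim r X → C (A X v) = A X (C v)) {y : V}
    (hy : GF.mdot b y = 0) {f : Fn} (hf : In (Wdg b c y) f) (m n : Ix) (v : D) :
    EE (G b) C (T m n f v) = T m n f (EE (G b) C v) := by
  have hfb : In (Wdg b c y) (bar f) := by
    refine ⟨isTest_bar hf.1, ?_, ?_⟩
    · rw [HasCompactSupport, H246.tsupport_bar]; exact hf.2.1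
    · rw [H246.tsupport_bar]; exact hf.2.2
  have hcb : GF.mdot c b = 1 := by rw [H755.md_comm]; exact hbc
  have hW : Big (MW {z : V | GF.mdot b (y + c) < GF.mdot b z ∧ GF.mdot c z < GF.mdot c (y + c)}) := by
    refine big_two (c := c - b) one_pos one_pos ?_ ?_
    · rw [H755.md_sub, hbc, k.nul.1, sub_zero]
    · rw [H755.md_sub, hcb, hc.1, zero_sub]
  have hsubW : {z : V | GF.mdot b (y + c) < GF.mdot b z ∧ GF.mdot c z < GF.mdot c (y + c)} ⊆
      Wdg c b (y + c) := by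
    rintro z ⟨h1, h2⟩
    refine ⟨?_, ?_⟩
    · rw [H755.md_sub]; linarith
    · rw [H755.md_sub]; linarith
  have aT : H496.Adj (T m n (bar f)) (T m n f) := by
    intro v w
    have h1 := hT.herm m n (bar f) v w hfb.1
    rwa [bar_bar] at h1
  -- the commutator of `E` and `T`
  have hcomm : ∀ v, EE (G b) C (T m n (bar f) v) - T m n (bar f) (EE (G b) C v) =
      Complex.I • (C (G b (T m n (bar f) v) - T m n (bar f) (G b v)) -
        (G b (T m n (bar f) (C v)) - T m n (bar f) (G b (C v)))) := by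
    intro v
    have hTs : ∀ u w : D, T m n (bar f) (u - w) = T m n (bar f) u - T m n (bar f) w :=
      fun u w => map_sub (e8_lm aT) u w
    have hTm : ∀ (r : ℂ) (u : D), T m n (bar f) (r • u) = r • T m n (bar f) u :=
      fun r u => map_smul (e8_lm aT) r u
    unfold EE
    rw [hTm, hTs, hCT m n _ _ hfb.1, k.Csub, hCT m n _ _ hfb.1]
    module
  have h0 : Complex.I • (C (G b (T m n (bar f) Q.vac) - T m n (bar f) (G b Q.vac)) -
        (G b (T m n (bar f) (C Q.vac)) - T m n (bar f) (G b (C Q.vac)))) = 0 := by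
    rw [← hcomm, ee_vac k, z_T (ee_symm k) (ee_tr k hCA) (fun s v hs => ee_dil k s v hs) hT m n
      hfb.1]
    have : T m n (bar f) (0 : D) = 0 := map_zero (e8_lm aT)
    rw [this, sub_zero]
  have h0' := (smul_eq_zero.1 h0).resolve_left I_ne_zero
  rw [← sub_eq_zero]
  refine dens_eq (Q := Q) k.nul hc hbc hW fun X X' hX => ?_
  have hXm : X ∈ alg (Wdg c b (y + c)) := N.mono _ _ hsubW (x3_mem N hX)
  have h1 := e8_local N hT k hc hbc (m := m) (n := n) (f := bar f)
    (fun v => hCT m n _ v hfb.1) hy hfb hXm Q.vac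
  rw [h0'] at h1
  have h2 : X (0 : D) = 0 := by
    have := hX.map_smul 0 0
    rwa [zero_smul, zero_smul] at this
  have h3 := hcomm (X Q.vac)
  rw [h1, h2, smul_zero, sub_eq_zero] at h3
  rw [inner_sub_right, ← ee_symm k, ← aT, ← aT, ← ee_symm k, h3, sub_self]

/-- `E` commutes with the stress tensor -/
theorem ee_T (N : NDer Q A alg G) (hT : Q.IsStress T) {b c : V}
    {C : D → D} (k : KC Q A b (G b) C) (hc : IsNull c) (hbc : GF.mdot b c = 1)
    (hCT : ∀ m n f v, GF.IsTest f → C (T m n f v) = T m n f (C v))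
    (hCA : ∀ (r : ℝ) (X : V → V) v, IsSim r X → C (A X v) = A X (C v)) (m n : Ix) {f : Fn}
    (hf : GF.IsTest f) (hfc : HasCompactSupport f) (v : D) :
    EE (G b) C (T m n f v) = T m n f (EE (G b) C v) := by
  obtain ⟨M, hM⟩ : ∃ M, ∀ z ∈ tsupport f, GF.mdot b z < M := by
    have h1 : IsCompact ((fun z : V => GF.mdot b z) '' tsupport f) :=
      IsCompact.image hfc (H846.contDiff_mdot b).continuous
    obtain ⟨c, hc⟩ := h1.bddAbove
    exact ⟨c + 1, fun z hz => by linarith [hc ⟨z, hz, rfl⟩]⟩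
  obtain ⟨l, hl⟩ : ∃ l, ∀ z ∈ tsupport f, l < GF.mdot c z := by
    have h1 : IsCompact ((fun z : V => GF.mdot c z) '' tsupport f) :=
      IsCompact.image hfc (H846.contDiff_mdot c).continuous
    obtain ⟨c, hc⟩ := h1.bddBelow
    exact ⟨c - 1, fun z hz => by linarith [hc ⟨z, hz, rfl⟩]⟩
  have hcb : GF.mdot c b = 1 := by rw [H755.md_comm]; exact hbc
  set x0 : V := -(M • c) with hx0
  set y : V := l • b with hy
  have hIn : In (tsupport f) f := ⟨hf, hfc, subset_rfl⟩
  obtain ⟨F, hF, hF2⟩ := exists_In hIn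
  subst hF
  have hby : GF.mdot b y = 0 := by rw [hy, H755.md_smul, k.nul.1, mul_zero]
  have hsub : sim 1 GF.one x0 '' tsupport (fl F) ⊆ Wdg b c y := by
    rintro _ ⟨z, hz, rfl⟩
    have e : sim 1 GF.one x0 z = z - M • c := by
      rw [H755.sim_one', hx0]
      abel
    rw [e]
    refine ⟨?_, ?_⟩
    · rw [H755.md_sub, H755.md_sub, H755.md_smul, hbc, hby]
      linarith [hM z hz]
    · rw [H755.md_sub, H755.md_sub, H755.md_smul, hc.1, hy, H755.md_smul, hcb]
      linarith [hl z hz]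
  have hf' : In (Wdg b c y) (fl (tauS (WithLp.toLp 2 x0) F)) := by
    refine In_fl.2 ?_
    have h1 := isTest_tau hF2 x0
    exact ⟨h1.1, fun z hz => hsub (h1.2 hz)⟩
  have hU : ∀ v, U1 Q (WithLp.toLp 2 x0) (T m n (fl F) v) =
      T m n (fl (tauS (WithLp.toLp 2 x0) F)) (U1 Q (WithLp.toLp 2 x0) v) := fun v =>
    U_fld (Q.bose_fld _ (hT.bose m n)) F (WithLp.toLp 2 x0) v
  have hinj : ∀ u w : D, U1 Q (WithLp.toLp 2 x0) u = U1 Q (WithLp.toLp 2 x0) w → u = w := by
    intro u w h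
    have h1 := congrArg (U1 Q (-WithLp.toLp 2 x0)) h
    rwa [U1_U1_all, U1_U1_all, neg_add_cancel, U1_zero_all, U1_zero_all] at h1
  refine hinj _ _ ?_
  rw [ee_tr k hCA, hU, hU, ee_Tw N hT k hc hbc hCT hCA hby hf', ee_tr k hCA]

/-- **The charge commutes with the generator of the null deformations.** -/
theorem comK (N : NDer Q A alg G) (hT : Q.IsStress T) (hP : PCh Q T A)
    {b c : V} {C : D → D} (k : KC Q A b (G b) C) (hc : IsNull c) (hbc : GF.mdot b c = 1)
    (hCT : ∀ m n f v, GF.IsTest f → C (T m n f v) = T m n f (C v)) (v : D) :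
    C (G b v) = G b (C v) := by
  have R := k.rep
  have hCA0 : ∀ (X : V → V) v, IsSim 0 X → C (A X v) = A X (C v) := fun X v hX =>
    com_P hT R hP k.cs (fun m n f v hf _ => hCT m n f v hf) hX v
  have hCA : ∀ (r : ℝ) (X : V → V) v, IsSim r X → C (A X v) = A X (C v) := fun r X v hX =>
    NF.f7_comA (C := fun _ => C) (fun _ v w _ => k.cs v w) R (fun _ s v _ hs =>
      k.cc s GF.one 1 0 v hs one_pos isLor_one (by rw [H731.sim_scale, one_smul])) k.nul
      (fun X v hX => hCA0 X v hX) hX v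
  have h0 := x0_boost R k.nul hc hbc (ee_symm k) (k := -1) (by norm_num) (fun e L v hL h => by
    rw [ee_cov k 1 L _ v one_pos (Real.exp_pos _) hL h, div_one, neg_one_mul])
    (fun v => com_P hT R hP (ee_symm k) (fun m n f v hf hfc =>
      ee_T N hT k hc hbc hCT hCA m n hf hfc v) (f4_Nf_sim b c) v) v
  unfold EE at h0
  exact sub_eq_zero.1 ((smul_eq_zero.1 h0).resolve_left I_ne_zero)

end Vale.Agent.P352.NR

end
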