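import Vale.Agent.P352.ND.W3
import Vale.Agent.P352.NR.Base

set_option linter.all false

/-!
# P352 NR: the generators act locally in opposite wedges
-/

noncomputable section

open MeasureTheory Filter Topology SchwartzMap
open scoped SchwartzMap ComplexConjugate LineDeriv

namespace Vale.Agent.P352.NR

open Vale.Agent.P352.H15 Vale.Agent.P352.G Vale.Agent.P352.H731

open GF (Ix V Fn Fld Theory Sch IsLor bas eta o sim pd tr improve ev bar Sep)
open H246 H496 H755 H746 H846
open Vale.Agent.P352.H746 Vale.Agent.P352.H846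
open H834 (Gx)
open ND (Wsep lo_AJ isSim_tr)

variable {D : Type*} [NormedAddCommGroup D] [InnerProductSpace ℂ D]
variable {Q Q' : GF.Theory D} {T : Ix → Ix → GF.Fld D} {J : Ix → GF.Fld D}
  {A : (V → V) → D → D} {C : V → D → D} {alg : Set V → Set (D → D)} {G : V → D → D}

/-- the operators that commute with the algebra of a wedge commute with the commutators of the
generators of the null deformations and the fields -/
theorem nloc_core (hJ : IsVirial Q T J) (N : NDer Q A alg G)
    (h : NGen Q J A G C) {a c y : V} (ha : IsNull a) (hc : IsNull c) (hac : 0 < GF.mdot a c)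
    {O : Set V} {P P' : D → D} (hP : LocOp Q O P P') {f : Fn} (hf : In (cc O) f)
    (hs : (tsupport f ⊆ Wdg a c y ∧ ∀ Z ∈ alg (Wdg a c y), ∀ u, P (Z u) = Z (P u)) ∨
      (tsupport f ⊆ Wdg c a y ∧ ∀ Z ∈ alg (Wdg c a y), ∀ u, P (Z u) = Z (P u))) (m : Ix) (v : D) :
    P (G a (J m f v)) - P (J m f (G a v)) = G a (J m f (P v)) - J m f (G a (P v)) := by
  have hlin2 : ∀ u w, J m f (u + w) = J m f u + J m f w := fun u w => by
    obtain ⟨F, rfl⟩ := exists_fl hf.1
    exact Vale.Agent.P352.fld_add (Q.bose_fld _ (hJ.bose m)) F u w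
  have hlin3 : ∀ (c : ℂ) u, J m f (c • u) = c • J m f u := fun c u =>
    Vale.Agent.P352.H746.fld_smul (Q.bose_fld _ (hJ.bose m)) hf.1 c u
  have hlin : ∀ u w, J m f (u - w) = J m f u - J m f w := fun u w => by
    rw [sub_eq_add_neg, ← neg_one_smul ℂ w, hlin2, hlin3, neg_one_smul, ← sub_eq_add_neg]
  -- the translated generator
  have key : Gx Q G a y (J m f (P v)) - J m f (Gx Q G a y (P v)) =
      P (Gx Q G a y (J m f v) - J m f (Gx Q G a y v)) := by
    rcases hs with ⟨h1, h2⟩ | ⟨h1, h2⟩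
    · have hX : J m f ∈ alg (Wdg a c y) :=
        N.fld _ _ f (Q.bose_fld _ (hJ.bose m)) ⟨hf.1, hf.2.1, h1⟩
      exact net_comm_tr N ha hc hac rfl hX hP.adj h2 v
    · have hX : J m f ∈ alg (Wdg c a y) :=
        N.fld _ _ f (Q.bose_fld _ (hJ.bose m)) ⟨hf.1, hf.2.1, h1⟩
      exact net_comm_tr' N ha hc hac rfl hX hP.adj h2 v
  set X : V → V := fun z => -(2 * GF.mdot a y) • z +
    (2 * GF.mdot y z) • a - (2 * GF.mdot a z) • y + cK a y with hXd
  have hGx : ∀ u, Gx Q G a y u = G a u + A X u - ((2 * GF.mdot a y : ℝ) : ℂ) • C a u :=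
    fun u => h.tra a y u ha
  have hA := lo_AJ hJ h.toRep hP hf (isSim_tr a y) m v
  rw [← hXd] at hA
  have hC : ∀ u, C a (J m f u) = J m f (C a u) := fun u => h.comJ a m f u ha hf.1
  simp only [hGx, hlin, hlin2, hlin3, hC] at key
  have e : (G a (J m f (P v)) - J m f (G a (P v))) - (P (G a (J m f v)) - P (J m f (G a v))) =
      (P (A X (J m f v)) - P (J m f (A X v))) - (A X (J m f (P v)) - J m f (A X (P v))) := by
    have k2 := sub_eq_zero.2 key
    simp only [Vale.Agent.P352.G.H846.lo_sub hP, Vale.Agent.P352.G.H846.lo_add hP,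
      Vale.Agent.P352.G.H846.lo_smul hP] at k2
    rw [← sub_eq_zero, ← k2]
    abel
  rw [hA, sub_self, sub_eq_zero] at e
  exact e.symm

/-- **The generators of the null deformations act locally in opposite wedges.** -/
theorem nlocF_of (hJ : IsVirial Q T J) (N : NDer Q A alg G)
    (h : NGen Q J A G C) (a : V) (m : Ix) (B : Fld D) (g f : Fn) (v : D) (ha : IsNull a)
    (hB : Q.fld B) (hg : GF.IsTest g) (hgc : HasCompactSupport g) (hf : In (cc (tsupport g)) f)
    (hs : Wsep a f (tsupport g)) : B g (G a (J m f v)) - B g (J m f (G a v)) =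
      G a (J m f (B g v)) - J m f (G a (B g v)) := by
  obtain ⟨B', hB', hadj⟩ := Q.adj B hB
  have hP := (relF_fld hB hB' hadj).locOp hg
  obtain ⟨c, y, hc, hac, ⟨h1, h2⟩ | ⟨h1, h2⟩⟩ := hs
  · have hY : B g ∈ alg (Wdg c a y) := N.fld _ _ g hB ⟨hg, hgc, h2⟩
    exact nloc_core hJ N h ha hc hac hP hf
      (Or.inl ⟨h1, fun Z hZ u => (N.loc a c y ha hc hac Z hZ _ hY u).symm⟩) m v
  · have hY : B g ∈ alg (Wdg a c y) := N.fld _ _ g hB ⟨hg, hgc, h2⟩
    exact nloc_core hJ N h ha hc hac hP hf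
      (Or.inr ⟨h1, fun Z hZ u => N.loc a c y ha hc hac _ hY Z hZ u⟩) m v

end Vale.Agent.P352.NR

end
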