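import Vale.Agent.P352.ND.C7c
import Vale.Agent.P352.ND.V2
import Vale.Agent.P352.ND.S1
import Vale.Agent.P352.H834.DB
import Vale.Agent.P352.NR.C6
import Vale.Agent.P352.NR.E8
import Vale.Agent.P352.NR.W3

/-!
# P352 NR: conformal invariance from the generators of the deformations of null hyperplanes
-/

set_option linter.all false

noncomputable section

open MeasureTheory Filter Topology

namespace Vale.Agent.P352.NR

open GF (Ix V Fn Fld Theory IsLor bas eta o sim)
open H246 H496 H755 H15 H846 H746 NF
open H121 (Cop)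
open G (NGen)
open ND (PCh Cc CK kc_of c_com c_eq main_confV ks_of)

variable {D : Type*} [NormedAddCommGroup D] [InnerProductSpace ℂ D]
variable {Q : GF.Theory D} {T : Ix → Ix → GF.Fld D} {J : Ix → GF.Fld D}
  {A : (V → V) → D → D} {alg : Set V → Set (D → D)} {G : V → D → D}

section

variable (hT : Q.IsStress T) (hJ : IsVirial Q T J) (N : NDer Q A alg G) (hP : PCh Q T A)
include hT hJ N hP

/-- the charge of the generators -/
theorem kc_nd {a b : V} (ha : IsNull a) (hb : IsNull b) (hab : GF.mdot a b = 1) :
    H731.KC Q A a (G a) (Cop Q A G a b) :=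
  kc_of N.toKS (ck_of N.toKS (lb_of N)) ha hb hab fun u t v => sd_nd hT hJ N hP ha hb hab u t v

/-- the charge commutes with the Poincaré generators -/
theorem cA_nd {a b : V} (ha : IsNull a) (hb : IsNull b) (hab : GF.mdot a b = 1) {X : V → V}
    (hX : IsSim 0 X) (v : D) : Cop Q A G a b (A X v) = A X (Cop Q A G a b v) :=
  c_com hT N.toKS hP ha b (fun m n f v hf _ =>
    c6_T hT N (kc_nd hT hJ N hP ha hb hab) m n hf v) hX v

/-- the charge does not depend on the null direction -/
theorem ceq_nd {a b a' b' : V} (ha : IsNull a) (hb : IsNull b) (hab : GF.mdot a b = 1)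
    (ha' : IsNull a') (hb' : IsNull b') (hab' : GF.mdot a' b' = 1) (v : D) :
    Cop Q A G a' b' v = Cop Q A G a b v :=
  c_eq N.toKS (ck_of N.toKS (lb_of N)) ha hb hab
    (fun u t v => sd_nd hT hJ N hP ha hb hab u t v) ha' hb' hab'
    (fun u t v => sd_nd hT hJ N hP ha' hb' hab' u t v)
    (fun X v hX => cA_nd hT hJ N hP ha hb hab hX v) v

/-- the charge commutes with the generator of the same null direction -/
theorem cK_nd {a b : V} (ha : IsNull a) (hb : IsNull b) (hab : GF.mdot a b = 1) (v : D) :
    Cop Q A G a b (G a v) = G a (Cop Q A G a b v) :=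
  comK N hT hP (kc_nd hT hJ N hP ha hb hab) hb hab
    (fun m n f v hf => c6_T hT N (kc_nd hT hJ N hP ha hb hab) m n hf v) v

/-- **Special conformal generators up to a neutral charge.** -/
theorem ngen_nd : NGen Q J A G (Cc Q A G) := by
  refine ngen_of N.toKS (lb_of N)
    (fun a b ha hb hab v => hx_of hT hJ N hP a b ha hb hab v)
    (fun a b ha hb hab m f v hf => c6_J hJ N (kc_nd hT hJ N hP ha hb hab) m hf v)
    (fun a b ha hb hab c v hc => ?_)
    (fun a b ha hb hab X v hX => cA_nd hT hJ N hP ha hb hab hX v)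
  obtain ⟨c', hc', hcc⟩ := H755.exists_dual hc
  rw [ceq_nd hT hJ N hP hc hc' hcc ha hb hab, ceq_nd hT hJ N hP hc hc' hcc ha hb hab]
  exact cK_nd hT hJ N hP hc hc' hcc v

/-- **Conformal invariance** from the generators of the deformations of null hyperplanes. -/
theorem confR : N86.ConfInv Q T :=
  main_confV hT hJ (ngen_nd hT hJ N hP) fun a m B g f v ha hB hg hgc hf hs =>
    nlocF_of hJ N (ngen_nd hT hJ N hP) a m B g f v ha hB hg hgc hf hs

end

/-- The generators of the null deformations of a net. -/
theorem nder_of {H : D → D} {S : V → ℝ → D → D} (N : CNet Q H alg S) (Gg : Gnr Q alg S G)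
    (R : H15.Rep Q A) : NDer Q A alg G :=
  { ks_of N Gg R with
    adj := N.adj
    one := N.one
    plus := N.add
    smul := N.smul
    prod := N.mul
    mono := N.mono
    fld := N.fld
    loc := N.loc
    bdd := by
      intro a b v ha
      obtain ⟨C, m, h⟩ := N.transl_bdd (G a) (Gg.mem a ha) v
      refine ⟨|C| * (1 + ‖b‖) ^ m, fun t ht => (h _).trans ?_⟩
      have h1 : ‖t • b‖ ≤ ‖b‖ := by
        rw [norm_smul, Real.norm_eq_abs]
        exact mul_le_of_le_one_left (norm_nonneg _) ht
      exact mul_le_mul (le_abs_self C) (pow_le_pow_left₀ (by positivity) (by linarith) m)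
        (by positivity) (abs_nonneg _)
    comm := by
      intro a c x y W ha hc hac hy hW X hX
      refine ⟨?_, ?_⟩
      · obtain ⟨X2, -, hX2⟩ := N.adj W X hX
        have hG : ∀ v w, inner ℂ (H834.Gx Q G a x v) w = inner ℂ v (H834.Gx Q G a x w) :=
          fun v w => H834.Gx_adj N Gg ha x v w
        refine ⟨fun w => X2 (H834.Gx Q G a x w) - H834.Gx Q G a x (X2 w), fun v w => ?_⟩
        show inner ℂ (H834.Gx Q G a x (X v) - X (H834.Gx Q G a x v)) w = _
        rw [inner_sub_left, inner_sub_right, hG, hX2, hX2, hG]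
      · rintro Y ⟨⟨Y2, hY⟩, hYc⟩ v
        rcases hW with rfl | rfl
        · exact H834.net_comm_tr N Gg ha hc hac hy hX hY hYc v
        · exact H834.net_comm_tr' N Gg ha hc hac hy hX hY hYc v }

end Vale.Agent.P352.NR

end
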